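import Crest.Agent.Lib.PT.Rec
import Crest.Agent.Lib.PT.Mat

/-!
Exact maximum weight matching in general graphs (small integer weights), in polynomial time.
A weight matrix is a list of lists; a matching on `range n` is an involution (fixed point = unmatched).

The algorithm is Edmonds' primal-dual method for perfect matchings of the complete graph on `2 n`
vertices.  Dual variables: `y v` for vertices, and a list `Ω` of odd sets, each counted with weight `2`
(a set may occur several times).  Every set comes with a table: for each of its vertices `x` a matching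
of the set missing only `x`.  `Λ` holds the blossoms shrunk since the last augmentation (weight `0`).
-/

set_option autoImplicit false

namespace Crest.Agent.Lib.Matching

/-- entry of a weight matrix -/
def ent (g : List (List ℕ)) (u v : ℕ) : ℕ := (g.getD u []).getD v 0

/-- `m` is an involution of `range n` -/
def IsInv (n : ℕ) (m : ℕ → ℕ) : Prop := ∀ v < n, m v < n ∧ m (m v) = v

/-- twice the weight of the matching `m` (every matched pair is counted from both ends) -/
def wt (g : List (List ℕ)) (m : ℕ → ℕ) : ℕ :=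
  ∑ v ∈ Finset.range g.length, if m v = v then 0 else ent g v (m v)

def Symm (g : List (List ℕ)) : Prop := ∀ u < g.length, ∀ v < g.length, ent g u v = ent g v u

/-! ### functions as lists -/

def fn (l : List ℕ) (v : ℕ) : ℕ := l.getD v v

def tab (N : ℕ) (f : ℕ → ℕ) : List ℕ := (List.range N).map (fun v => min (f v) N)

/-! ### one search in a simple graph -/

/-- pair up consecutive members of `l`, identity outside `l` -/
def pairUp (l : List ℕ) (v : ℕ) : ℕ :=
  if l.contains v then
    l.getD (if l.idxOf v % 2 = 0 then l.idxOf v + 1 else l.idxOf v - 1) v else v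

/-- the matching of the odd cycle `b` missing `c` -/
def cyct (b : List ℕ) (c : ℕ) : ℕ → ℕ := pairUp (b.drop (b.idxOf c + 1) ++ b.take (b.idxOf c))

def heads (P : List (List ℕ)) : List ℕ := P.map (fun p => p.headD 0)

/-- grow the alternating forest; state: paths from the outer nodes to their roots, inner nodes -/
def grow (U : List ℕ) (E : List (ℕ × ℕ)) (μ : List ℕ) (s : List (List ℕ) × List ℕ) :
    List (List ℕ) × List ℕ :=
  (((s.1.product U).find? (fun q => E.contains (q.1.headD 0, q.2) && !(heads s.1).contains q.2 &&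
      !s.2.contains q.2)).map (fun q => ((fn μ q.2 :: q.2 :: q.1) :: s.1, q.2 :: s.2))).getD s

def forest (U : List ℕ) (E : List (ℕ × ℕ)) (μ : List ℕ) : List (List ℕ) × List ℕ :=
  (grow U E μ)^[U.length] ((U.filter (fun v => fn μ v == v)).map (fun v => [v]), [])

/-- first member of `q` lying on `p` -/
def meet (p q : List ℕ) : ℕ := (q.dropWhile (fun v => !p.contains v)).headD 0

/-- what to do with an edge between the heads of the paths `p` and `q` -/
def join (N : ℕ) (μ : List ℕ) (p q : List ℕ) : ℕ × List ℕ × List ℕ :=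
  if q.all (fun v => !p.contains v) then
    (0, tab N (fun v => if (p.reverse ++ q).contains v then pairUp (p.reverse ++ q) v else fn μ v), [])
  else
    (1, tab N (fun v => if (p.dropWhile (fun u => u != meet p q)).contains v then
          pairUp (p.dropWhile (fun u => u != meet p q)).tail v else fn μ v),
      meet p q :: (p.takeWhile (fun u => u != meet p q)).reverse ++
        q.takeWhile (fun v => !p.contains v))

/-- `(0, μ', _)`: larger matching; `(1, μ', b)`: blossom `b` with exposed base; `(2, S, T)`: barrier -/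
def search (N : ℕ) (U : List ℕ) (E : List (ℕ × ℕ)) (μ : List ℕ) : ℕ × List ℕ × List ℕ :=
  (((((forest U E μ).1.product (forest U E μ).1).find?
      (fun q => q.1.headD 0 != q.2.headD 0 && E.contains (q.1.headD 0, q.2.headD 0))).map
    (fun q => join N μ q.1 q.2)).getD (2, (forest U E μ).2, heads (forest U E μ).1))

/-! ### blocks -/

/-- an odd set with its table -/
abbrev Entry := List ℕ × List (List ℕ)

def row (e : Entry) (x : ℕ) : ℕ → ℕ := fn (e.2.getD x [])

/-- the first entry containing `v` -/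
def top (Γ : List Entry) (v : ℕ) : Entry := (Γ.find? (fun e => e.1.contains v)).getD ([v], [])

def blk (Γ : List Entry) (v : ℕ) : List ℕ := (top Γ v).1

def rep (Γ : List Entry) (v : ℕ) : ℕ := (blk Γ v).headD v

def tbl (Γ : List Entry) (x : ℕ) : ℕ → ℕ := row (top Γ x) x

def nodes (N : ℕ) (Γ : List Entry) : List ℕ := (List.range N).filter (fun v => rep Γ v == v)

/-- some tight pair between the blocks `c` and `d` -/
def ed (τ : List (ℕ × ℕ)) (Γ : List Entry) (c d : ℕ) : Option (ℕ × ℕ) :=
  τ.find? (fun q => rep Γ q.1 == c && rep Γ q.2 == d)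

def edges (N : ℕ) (τ : List (ℕ × ℕ)) (Γ : List Entry) : List (ℕ × ℕ) :=
  ((nodes N Γ).product (nodes N Γ)).filter (fun q => q.1 != q.2 && (ed τ Γ q.1 q.2).isSome)

/-- the exposed vertex of the block `c` -/
def ex (τ : List (ℕ × ℕ)) (Γ : List Entry) (μ : ℕ → ℕ) (x c : ℕ) : ℕ :=
  if μ c = c then (if rep Γ x = c then x else c)
  else if c < μ c then ((ed τ Γ c (μ c)).getD (c, c)).1 else ((ed τ Γ (μ c) c).getD (c, c)).2

/-- from a matching of blocks to a matching of vertices -/
def lift (τ : List (ℕ × ℕ)) (Γ : List Entry) (μ : ℕ → ℕ) (x v : ℕ) : ℕ :=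
  if v = ex τ Γ μ x (rep Γ v) then
    (if μ (rep Γ v) = rep Γ v then v else ex τ Γ μ x (μ (rep Γ v)))
  else tbl Γ (ex τ Γ μ x (rep Γ v)) v

/-- from a matching of vertices to a matching of blocks -/
def proj (Γ : List Entry) (m : ℕ → ℕ) (c : ℕ) : ℕ :=
  rep Γ (m (((blk Γ c).find? (fun v => m v == v || !(blk Γ c).contains (m v))).getD c))

/-- the union of the blocks on the cycle `b` -/
def merge (N : ℕ) (τ : List (ℕ × ℕ)) (Γ : List Entry) (b : List ℕ) : Entry :=
  ((List.range N).filter (fun v => b.contains (rep Γ v)),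
    (List.range N).map (fun x => tab N (lift τ Γ (cyct b (rep Γ x)) x)))

/-- a copy of the block `c` -/
def copy (N : ℕ) (Γ : List Entry) (c : ℕ) : Entry :=
  ((List.range N).filter (fun v => rep Γ v == c), (List.range N).map (fun x => tab N (tbl Γ x)))

/-! ### duals -/

def om (g : List (List ℕ)) (u v : ℕ) : ℕ := if u < g.length ∧ v < g.length then ent g u v else 0

def cnt (Ω : List Entry) (u v : ℕ) : ℕ := Ω.countP (fun e => e.1.contains u && e.1.contains v)

def slack (g : List (List ℕ)) (y : List ℤ) (Ω : List Entry) (u v : ℕ) : ℤ :=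
  y.getD u 0 + y.getD v 0 + 2 * (cnt Ω u v : ℤ) - 2 * (om g u v : ℤ)

/-- tight pairs -/
def tight (g : List (List ℕ)) (y : List ℤ) (Ω : List Entry) : List (ℕ × ℕ) :=
  ((List.range (2 * g.length)).product (List.range (2 * g.length))).filter
    (fun q => slack g y Ω q.1 q.2 == 0)

/-- the members of `l` whose dual has parity `p` -/
def par (y : List ℤ) (p : ℤ) (l : List ℕ) : List ℕ := l.filter (fun c => y.getD c 0 % 2 == p)

def pick (y : List ℤ) (S T : List ℕ) : ℤ :=
  if (par y 0 S).length < (par y 0 T).length then 0 else 1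

def newY (N : ℕ) (y : List ℤ) (Γ : List Entry) (S T : List ℕ) : List ℤ :=
  (List.range N).map (fun v => if T.contains (rep Γ v) then y.getD v 0 - 1
    else if S.contains (rep Γ v) then y.getD v 0 + 1 else y.getD v 0)

/-- remove the first entry containing `c`, for every `c` in `S` -/
def pop (Ω : List Entry) (S : List ℕ) : List Entry :=
  S.foldl (fun Ω c => Ω.eraseIdx (Ω.findIdx (fun e => e.1.contains c))) Ω

def newOm (N : ℕ) (Ω Γ : List Entry) (S T : List ℕ) : List Entry := T.map (copy N Γ) ++ pop Ω S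

/-- state: `y`, `Ω`, `Λ`, matching -/
abbrev St := List ℤ × List Entry × List Entry × List ℕ

/-- the result of the search in the contracted graph of tight pairs -/
def res (g : List (List ℕ)) (s : St) : ℕ × List ℕ × List ℕ :=
  search (2 * g.length) (nodes (2 * g.length) (s.2.2.1 ++ s.2.1))
    (edges (2 * g.length) (tight g s.1 s.2.1) (s.2.2.1 ++ s.2.1))
    (tab (2 * g.length) (proj (s.2.2.1 ++ s.2.1) (fn s.2.2.2)))

def dualStep (g : List (List ℕ)) (s : St) (S T : List ℕ) : St :=
  (newY (2 * g.length) s.1 (s.2.2.1 ++ s.2.1) S T,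
    newOm (2 * g.length) s.2.1 (s.2.2.1 ++ s.2.1) S T, [],
    tab (2 * g.length) (lift [] (newOm (2 * g.length) s.2.1 (s.2.2.1 ++ s.2.1) S T) (fun c => c) 0))

def step (g : List (List ℕ)) (s : St) : St :=
  if (List.range (2 * g.length)).all (fun v => fn s.2.2.2 v != v) then s
  else if (res g s).1 = 0 then
    (s.1, s.2.1, [],
      tab (2 * g.length) (lift (tight g s.1 s.2.1) (s.2.2.1 ++ s.2.1) (fn (res g s).2.1) 0))
  else if (res g s).1 = 1 then
    (s.1, s.2.1,
      merge (2 * g.length) (tight g s.1 s.2.1) (s.2.2.1 ++ s.2.1) (res g s).2.2 :: s.2.2.1,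
      tab (2 * g.length) (lift (tight g s.1 s.2.1) (s.2.2.1 ++ s.2.1) (fn (res g s).2.1) 0))
  else dualStep g s (par s.1 (pick s.1 (res g s).2.1 (res g s).2.2) (res g s).2.1)
    (par s.1 (pick s.1 (res g s).2.1 (res g s).2.2) (res g s).2.2)

/-- largest weight -/
def wmax (g : List (List ℕ)) : ℕ :=
  (((List.range g.length).product (List.range g.length)).map (fun q => ent g q.1 q.2)).foldr max 0

def start (g : List (List ℕ)) : St := (List.replicate (2 * g.length) (wmax g : ℤ), [], [], [])

def rounds (g : List (List ℕ)) : ℕ := (2 * g.length * wmax g + 1) * (2 * g.length + 1) ^ 2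

def mwm (g : List (List ℕ)) : List ℕ :=
  (List.range g.length).map (fun v =>
    if fn ((step g)^[rounds g] (start g)).2.2.2 v < g.length
    then fn ((step g)^[rounds g] (start g)).2.2.2 v else v)

/-! ### specifications -/

/-- `μ` is a matching of the graph `E` on `U` -/
def Mt (U : List ℕ) (E : List (ℕ × ℕ)) (μ : ℕ → ℕ) : Prop :=
  ∀ v ∈ U, μ v ∈ U ∧ μ (μ v) = v ∧ (μ v ≠ v → (v, μ v) ∈ E)

/-- number of exposed members of `U` -/
def fr (U : List ℕ) (μ : ℕ → ℕ) : ℕ := U.countP (fun v => μ v == v)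

/-- exactly one member of `B` is not matched inside `B` -/
def Full (m : ℕ → ℕ) (B : List ℕ) : Prop := ∃ e ∈ B, ∀ v ∈ B, (m v = v ∨ m v ∉ B) ↔ v = e

/-- `f` matches all of `B` except `x` -/
def Near (E : List (ℕ × ℕ)) (B : List ℕ) (x : ℕ) (f : ℕ → ℕ) : Prop :=
  Mt B E f ∧ ∀ v ∈ B, f v = v ↔ v = x

def Crit (N : ℕ) (τ : List (ℕ × ℕ)) (e : Entry) : Prop :=
  e.1.Nodup ∧ e.1 ≠ [] ∧ (∀ v ∈ e.1, v < N) ∧ ∀ x ∈ e.1, Near τ e.1 x (row e x)

/-- relation between an entry and a later (older) one -/
def Nest (e e' : Entry) : Prop :=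
  e.1.Disjoint e'.1 ∨ (e'.1 ⊆ e.1 ∧ ∀ x ∈ e.1, Full (row e x) e'.1)

def Lam (N : ℕ) (τ : List (ℕ × ℕ)) (Γ : List Entry) : Prop :=
  (∀ e ∈ Γ, Crit N τ e) ∧ Γ.Pairwise Nest

/-- a set of pairs that is symmetric and lives on `range N` -/
def SymE (N : ℕ) (τ : List (ℕ × ℕ)) : Prop := ∀ u v, (u, v) ∈ τ → (v, u) ∈ τ ∧ u < N

/-- a matching of the vertices compatible with all entries -/
def VM (N : ℕ) (τ : List (ℕ × ℕ)) (Γ : List Entry) (m : ℕ → ℕ) : Prop :=
  Mt (List.range N) τ m ∧ ∀ e ∈ Γ, Full m e.1

/-- every shrunk blossom was exposed by a matching with `f` exposed vertices -/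
def Hist (N : ℕ) (τ : List (ℕ × ℕ)) (Ω : List Entry) (f : ℕ) : List Entry → Prop
  | [] => True
  | C :: Λ => (∃ m, VM N τ (C :: Λ ++ Ω) m ∧ fr (List.range N) m = f ∧ ∃ x ∈ C.1, m x = x) ∧
      Hist N τ Ω f Λ

/-- dual objective -/
def obj (N : ℕ) (y : List ℤ) (Ω : List Entry) : ℤ :=
  ∑ v ∈ Finset.range N, y.getD v 0 + (Ω.map (fun e => (e.1.length : ℤ) - 1)).sum

def Feas (g : List (List ℕ)) (y : List ℤ) (Ω : List Entry) : Prop :=
  ∀ u v, u < 2 * g.length → v < 2 * g.length → u ≠ v → 0 ≤ slack g y Ω u v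

structure Inv (g : List (List ℕ)) (s : St) : Prop where
  feas : Feas g s.1 s.2.1
  lam : Lam (2 * g.length) (tight g s.1 s.2.1) (s.2.2.1 ++ s.2.1)
  vm : VM (2 * g.length) (tight g s.1 s.2.1) (s.2.2.1 ++ s.2.1) (fn s.2.2.2)
  hist : Hist (2 * g.length) (tight g s.1 s.2.1) s.2.1 (fr (List.range (2 * g.length)) (fn s.2.2.2))
    s.2.2.1

lemma fn_tab {N : ℕ} {f : ℕ → ℕ} {v : ℕ} (hv : v < N) (hf : f v ≤ N) : fn (tab N f) v = f v := by
  simp [fn, tab, List.getD_eq_getElem?_getD, hv, hf]

end Crest.Agent.Lib.Matching
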