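import Crest.Agent.Lib.Matching.Base

/-! Blocks of a laminar list of entries. -/

set_option autoImplicit false

namespace Crest.Agent.Lib.Matching

variable {N : ℕ} {τ : List (ℕ × ℕ)} {Γ : List Entry}

theorem top_cases (Γ : List Entry) (v : ℕ) :
    (top Γ v = ([v], []) ∧ ∀ e ∈ Γ, v ∉ e.1) ∨
      ∃ l₁ l₂, Γ = l₁ ++ top Γ v :: l₂ ∧ v ∈ (top Γ v).1 ∧ ∀ e ∈ l₁, v ∉ e.1 := by
  unfold top
  cases h : Γ.find? (fun e => e.1.contains v) with
  | none =>
    left
    refine ⟨rfl, fun e he hv => ?_⟩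
    have := List.find?_eq_none.1 h e he
    simp [hv] at this
  | some e =>
    right
    obtain ⟨h1, l₁, l₂, h2, h3⟩ := List.find?_eq_some_iff_append.1 h
    refine ⟨l₁, l₂, h2, by simpa using h1, fun e' he' hv => ?_⟩
    have := h3 e' he'
    simp [hv] at this

theorem top_append_cons {l₁ l₂ : List Entry} {e : Entry} {v : ℕ} (h1 : v ∈ e.1)
    (h2 : ∀ e ∈ l₁, v ∉ e.1) : top (l₁ ++ e :: l₂) v = e := by
  unfold top
  have : (l₁ ++ e :: l₂).find? (fun e => e.1.contains v) = some e :=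
    List.find?_eq_some_iff_append.2 ⟨by simpa using h1, l₁, l₂, rfl, fun a ha => by
      simpa using h2 a ha⟩
  rw [this]; rfl

theorem top_append_of_not_mem {Λ : List Entry} {v : ℕ} (h : ∀ e ∈ Λ, v ∉ e.1) (Ω : List Entry) :
    top (Λ ++ Ω) v = top Ω v := by
  unfold top
  have : Λ.find? (fun e => e.1.contains v) = none :=
    List.find?_eq_none.2 fun e he => by simpa using h e he
  rw [List.find?_append, this]; rfl

theorem mem_blk (Γ : List Entry) (v : ℕ) : v ∈ blk Γ v := by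
  unfold blk
  rcases top_cases Γ v with ⟨h, -⟩ | ⟨_, _, -, h, -⟩
  · rw [h]; simp
  · exact h

theorem rep_mem (Γ : List Entry) (v : ℕ) : rep Γ v ∈ blk Γ v := by
  have := mem_blk Γ v
  unfold rep
  cases h : blk Γ v with
  | nil => rw [h] at this; simp at this
  | cons a l => simp

theorem top_eq_of_mem (h : Γ.Pairwise Nest) {u v : ℕ} (hu : u ∈ blk Γ v) : top Γ u = top Γ v := by
  unfold blk at hu
  rcases top_cases Γ v with ⟨h1, -⟩ | ⟨l₁, l₂, h1, h2, h3⟩
  · rw [h1] at hu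
    obtain rfl : u = v := by simpa using hu
    rfl
  · generalize top Γ v = e at *
    subst h1
    refine top_append_cons hu fun e' he' hu' => ?_
    rcases (List.pairwise_append.1 h).2.2 e' he' e (by simp) with h4 | ⟨h4, -⟩
    · exact h4 hu' hu
    · exact h3 e' he' (h4 h2)

theorem blk_eq_of_mem (h : Γ.Pairwise Nest) {u v : ℕ} (hu : u ∈ blk Γ v) : blk Γ u = blk Γ v := by
  unfold blk; rw [top_eq_of_mem h hu]

theorem rep_eq_iff (h : Γ.Pairwise Nest) {u v : ℕ} : rep Γ u = rep Γ v ↔ u ∈ blk Γ v := by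
  constructor
  · intro e
    have h1 := blk_eq_of_mem h (rep_mem Γ u)
    have h2 := blk_eq_of_mem h (rep_mem Γ v)
    rw [← h2, ← e, h1]; exact mem_blk Γ u
  · intro e
    have h1 := blk_eq_of_mem h e
    have h2 := mem_blk Γ v
    unfold rep
    rw [h1]
    cases h3 : blk Γ v with
    | nil => rw [h3] at h2; simp at h2
    | cons a l => rfl

theorem rep_rep (h : Γ.Pairwise Nest) (v : ℕ) : rep Γ (rep Γ v) = rep Γ v :=
  (rep_eq_iff h).2 (rep_mem Γ v)

theorem blk_rep (h : Γ.Pairwise Nest) (v : ℕ) : blk Γ (rep Γ v) = blk Γ v :=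
  blk_eq_of_mem h (rep_mem Γ v)

theorem crit_top (h : Lam N τ Γ) {v : ℕ} (hv : v < N) : Crit N τ (top Γ v) := by
  rcases top_cases Γ v with ⟨h1, -⟩ | ⟨l₁, l₂, h1, -, -⟩
  · rw [h1]
    refine ⟨by simp, by simp, by simpa using hv, ?_⟩
    intro x hx
    obtain rfl : x = v := by simpa using hx
    simp [Near, Mt, row, fn]
  · exact h.1 _ (by generalize top Γ v = e at h1; rw [h1]; simp)

theorem blk_lt (h : Lam N τ Γ) {u v : ℕ} (hv : v < N) (hu : u ∈ blk Γ v) : u < N :=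
  (crit_top h hv).2.2.1 u hu

theorem blk_nodup (h : Lam N τ Γ) {v : ℕ} (hv : v < N) : (blk Γ v).Nodup := (crit_top h hv).1

theorem rep_lt (h : Lam N τ Γ) {v : ℕ} (hv : v < N) : rep Γ v < N := blk_lt h hv (rep_mem Γ v)

theorem mem_nodes {c : ℕ} : c ∈ nodes N Γ ↔ c < N ∧ rep Γ c = c := by simp [nodes]

theorem nodes_nodup (N : ℕ) (Γ : List Entry) : (nodes N Γ).Nodup := List.nodup_range.filter _

theorem nodes_length_le (N : ℕ) (Γ : List Entry) : (nodes N Γ).length ≤ N :=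
  (List.length_filter_le _ _).trans (by simp)

theorem rep_mem_nodes (h : Lam N τ Γ) {v : ℕ} (hv : v < N) : rep Γ v ∈ nodes N Γ :=
  mem_nodes.2 ⟨rep_lt h hv, rep_rep h.2 v⟩

theorem tbl_near (h : Lam N τ Γ) {v x : ℕ} (hv : v < N) (hx : x ∈ blk Γ v) :
    Near τ (blk Γ v) x (tbl Γ x) := by
  unfold tbl
  rw [top_eq_of_mem h.2 hx]
  exact (crit_top h hv).2.2.2 x hx

theorem Near.full {E : List (ℕ × ℕ)} {B : List ℕ} {x : ℕ} {f : ℕ → ℕ} (h : Near E B x f)
    (hx : x ∈ B) : Full f B :=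
  ⟨x, hx, fun v hv => by
    have h1 := (h.1 v hv).1
    have h2 := h.2 v hv
    tauto⟩

theorem sub_blk (h : Γ.Pairwise Nest) {e : Entry} (he : e ∈ Γ) {u : ℕ} (hu : u ∈ e.1) :
    e.1 ⊆ blk Γ u := by
  unfold blk
  rcases top_cases Γ u with ⟨-, h1⟩ | ⟨l₁, l₂, h1, h2, h3⟩
  · exact absurd hu (h1 e he)
  · generalize top Γ u = e' at *
    subst h1
    rcases List.mem_append.1 he with h4 | h4
    · exact absurd hu (h3 e h4)
    · rcases List.mem_cons.1 h4 with rfl | h4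
      · exact List.Subset.refl _
      · rcases (List.pairwise_cons.1 (List.pairwise_append.1 h).2.1).1 e h4 with h5 | ⟨h5, -⟩
        · exact absurd hu (h5 h2)
        · exact h5

theorem top_nest (h : Lam N τ Γ) (v : ℕ) {e : Entry} (he : e ∈ Γ) :
    (blk Γ v).Disjoint e.1 ∨ (e.1 ⊆ blk Γ v ∧ ∀ x ∈ blk Γ v, Full (tbl Γ x) e.1) := by
  by_cases hd : (blk Γ v).Disjoint e.1
  · exact Or.inl hd
  right
  obtain ⟨u, hu1, hu2⟩ : ∃ u, u ∈ blk Γ v ∧ u ∈ e.1 := by
    by_contra H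
    exact hd fun a h1 h2 => H ⟨a, h1, h2⟩
  refine ⟨blk_eq_of_mem h.2 hu1 ▸ sub_blk h.2 he hu2, fun x hx => ?_⟩
  unfold tbl
  rw [top_eq_of_mem h.2 hx, ← top_eq_of_mem h.2 hu1]
  rw [← blk_eq_of_mem h.2 hu1] at hx
  unfold blk at hx
  rcases top_cases Γ u with ⟨-, h1⟩ | ⟨l₁, l₂, h1, h2, h3⟩
  · exact absurd hu2 (h1 e he)
  · generalize top Γ u = e' at *
    subst h1
    rcases List.mem_append.1 he with h4 | h4
    · exact absurd hu2 (h3 e h4)
    · rcases List.mem_cons.1 h4 with rfl | h4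
      · exact ((h.1 e he).2.2.2 x hx).full hx
      · rcases (List.pairwise_cons.1 (List.pairwise_append.1 h.2).2.1).1 e h4 with h5 | ⟨-, h5⟩
        · exact absurd hu2 (h5 h2)
        · exact h5 x hx

/-- a compatible matching exposes exactly one vertex of every block -/
theorem VM.full_blk {m : ℕ → ℕ} (hm : VM N τ Γ m) (v : ℕ) : Full m (blk Γ v) := by
  unfold blk
  rcases top_cases Γ v with ⟨h1, -⟩ | ⟨l₁, l₂, h1, -, -⟩
  · rw [h1]
    refine ⟨v, by simp, fun u hu => ?_⟩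
    obtain rfl : u = v := by simpa using hu
    simp; tauto
  · exact hm.2 _ (by generalize top Γ v = e at h1; rw [h1]; simp)

theorem mem_edges {c d : ℕ} : (c, d) ∈ edges N τ Γ ↔ c ∈ nodes N Γ ∧ d ∈ nodes N Γ ∧ c ≠ d ∧
    ∃ u v, (u, v) ∈ τ ∧ rep Γ u = c ∧ rep Γ v = d := by
  simp [edges, ed, and_assoc]

theorem edges_symm (hτ : SymE N τ) (c d : ℕ) (h : (c, d) ∈ edges N τ Γ) : (d, c) ∈ edges N τ Γ := by
  obtain ⟨h1, h2, h3, u, v, h4, h5, h6⟩ := mem_edges.1 h
  exact mem_edges.2 ⟨h2, h1, h3.symm, v, u, (hτ u v h4).1, h6, h5⟩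

/-- parity count along a matching that misses exactly `x` -/
theorem Near.sum_eq {E : List (ℕ × ℕ)} {B : List ℕ} {x : ℕ} {f : ℕ → ℕ} (h : Near E B x f)
    (hx : x ∈ B) (φ : ℕ → ZMod 2) (hφ : ∀ u v, (u, v) ∈ E → φ u + φ v = 0) :
    ∑ v ∈ B.toFinset, φ v = φ x := by
  rw [← Finset.add_sum_erase _ _ (List.mem_toFinset.2 hx)]
  have : ∑ v ∈ B.toFinset.erase x, φ v = 0 := by
    refine Finset.sum_involution (fun a _ => f a) ?_ ?_ ?_ ?_
    · intro a ha
      obtain ⟨h1, h2⟩ := Finset.mem_erase.1 ha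
      have h3 := List.mem_toFinset.1 h2
      exact hφ _ _ ((h.1 a h3).2.2 fun e => h1 ((h.2 a h3).1 e))
    · intro a ha _
      obtain ⟨h1, h2⟩ := Finset.mem_erase.1 ha
      exact fun e => h1 ((h.2 a (List.mem_toFinset.1 h2)).1 e)
    · intro a ha
      obtain ⟨h1, h2⟩ := Finset.mem_erase.1 ha
      have h3 := List.mem_toFinset.1 h2
      refine Finset.mem_erase.2 ⟨fun e => h1 ?_, List.mem_toFinset.2 (h.1 a h3).1⟩
      have h4 := (h.1 a h3).2.1
      rw [e, (h.2 x hx).2 rfl] at h4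
      exact h4.symm
    · intro a ha
      exact (h.1 a (List.mem_toFinset.1 (Finset.mem_erase.1 ha).2)).2.1
  rw [this, add_zero]

theorem Near.odd {E : List (ℕ × ℕ)} {B : List ℕ} {x : ℕ} {f : ℕ → ℕ} (h : Near E B x f)
    (hx : x ∈ B) (hB : B.Nodup) : Odd B.length := by
  have := h.sum_eq hx (fun _ => 1) (fun _ _ _ => by decide)
  rw [Finset.sum_const, List.toFinset_card_of_nodup hB, nsmul_eq_mul, mul_one] at this
  exact ZMod.natCast_eq_one_iff_odd.1 this

theorem Crit.odd {e : Entry} (h : Crit N τ e) : Odd e.1.length := by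
  obtain ⟨x, hx⟩ := List.exists_mem_of_ne_nil _ h.2.1
  exact (h.2.2.2 x hx).odd hx h.1

/-- an involution cannot match an odd set perfectly -/
theorem exists_exposed {B : List ℕ} (hB : B.Nodup) (hodd : Odd B.length) {m : ℕ → ℕ}
    (hm : ∀ v ∈ B, m (m v) = v) : ∃ v ∈ B, m v = v ∨ m v ∉ B := by
  by_contra H
  push Not at H
  have : ∑ v ∈ B.toFinset, (1 : ZMod 2) = 0 :=
    Finset.sum_involution (fun a _ => m a) (fun _ _ => by decide)
      (fun a ha _ => (H a (List.mem_toFinset.1 ha)).1)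
      (fun a ha => List.mem_toFinset.2 (H a (List.mem_toFinset.1 ha)).2)
      (fun a ha => hm a (List.mem_toFinset.1 ha))
  rw [Finset.sum_const, List.toFinset_card_of_nodup hB, nsmul_eq_mul, mul_one,
    ZMod.natCast_eq_zero_iff_even] at this
  exact Nat.not_even_iff_odd.2 hodd this

theorem Lam.sublist (h : Lam N τ Γ) {Γ' : List Entry} (hs : Γ'.Sublist Γ) : Lam N τ Γ' :=
  ⟨fun e he => h.1 e (hs.subset he), h.2.sublist hs⟩

theorem VM.sub {m : ℕ → ℕ} (h : VM N τ Γ m) {Γ' : List Entry} (hs : Γ' ⊆ Γ) : VM N τ Γ' m :=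
  ⟨h.1, fun e he => h.2 e (hs he)⟩

end Crest.Agent.Lib.Matching
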