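import Crest.Agent.Lib.Matching.Duality

/-! The dual adjustment. -/

set_option autoImplicit false

namespace Crest.Agent.Lib.Matching

variable {g : List (List ℕ)} {y : List ℤ} {Ω Λ : List Entry}

theorem dual_par_length (y : List ℤ) (l : List ℕ) :
    (par y 0 l).length + (par y 1 l).length = l.length := by
  induction l with
  | nil => rfl
  | cons c l ih =>
    unfold par at ih ⊢
    rw [List.filter_cons, List.filter_cons]
    rcases Int.emod_two_eq_zero_or_one (y.getD c 0) with h | h <;> rw [h] <;> simp at ih ⊢ <;> omega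

theorem dual_pick {S T : List ℕ} (h : S.length < T.length) :
    (par y (pick y S T) S).length < (par y (pick y S T) T).length := by
  have h1 := dual_par_length y S
  have h2 := dual_par_length y T
  unfold pick
  split_ifs with h3
  · exact h3
  · omega

theorem dual_mem_par {p : ℤ} {l : List ℕ} {c : ℕ} : c ∈ par y p l ↔ c ∈ l ∧ y.getD c 0 % 2 = p := by
  simp [par]

theorem dual_sum_ind {L : List ℕ} (hL : L.Nodup) (r : ℕ) :
    (L.map fun c => if r = c then (1 : ℤ) else 0).sum = if r ∈ L then 1 else 0 := by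
  induction L with
  | nil => simp
  | cons a L ih =>
    obtain ⟨h1, h2⟩ := List.nodup_cons.1 hL
    rw [List.map_cons, List.sum_cons, ih h2]
    by_cases h : r = a
    · subst h
      simp [h1]
    · simp [h]

theorem dual_cnt (Ω : List Entry) (u v : ℕ) :
    (cnt Ω u v : ℤ) = (Ω.map fun e => if u ∈ e.1 ∧ v ∈ e.1 then (1 : ℤ) else 0).sum := by
  unfold cnt
  induction Ω with
  | nil => simp
  | cons e Ω ih =>
    rw [List.countP_cons, List.map_cons, List.sum_cons, ← ih]
    by_cases h : u ∈ e.1 ∧ v ∈ e.1 <;> simp [h, add_comm]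

theorem dual_pop_sublist (Ω : List Entry) (S : List ℕ) : (pop Ω S).Sublist Ω := by
  unfold pop
  induction S generalizing Ω with
  | nil => exact List.Sublist.refl _
  | cons c S ih => exact (ih _).trans (List.eraseIdx_sublist _ _)

theorem dual_erase (Ω : List Entry) (c : ℕ) (F : Entry → ℤ) (hF : F ([c], []) = 0) :
    ((Ω.eraseIdx (Ω.findIdx fun e => e.1.contains c)).map F).sum = (Ω.map F).sum - F (top Ω c) ∧
      ∀ d, d ∉ blk Ω c → top (Ω.eraseIdx (Ω.findIdx fun e => e.1.contains c)) d = top Ω d := by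
  induction Ω with
  | nil => simp [top, hF]
  | cons e Ω ih =>
    by_cases h : c ∈ e.1
    · have h1 : top (e :: Ω) c = e := top_append_cons (l₁ := []) h (by simp)
      have h2 : (e :: Ω).findIdx (fun e => e.1.contains c) = 0 := by simp [List.findIdx_cons, h]
      rw [h2, blk, h1]
      refine ⟨by simp, fun d hd => ?_⟩
      exact (top_append_of_not_mem (Λ := [e]) (by simpa using hd) Ω).symm
    · have h1 : top (e :: Ω) c = top Ω c := top_append_of_not_mem (Λ := [e]) (by simpa using h) Ω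
      have h2 : (e :: Ω).findIdx (fun e => e.1.contains c) =
          Ω.findIdx (fun e => e.1.contains c) + 1 := by simp [List.findIdx_cons, h]
      rw [h2, blk, h1, List.eraseIdx_cons_succ]
      refine ⟨by rw [List.map_cons, List.sum_cons, ih.1, List.map_cons, List.sum_cons]; ring,
        fun d hd => ?_⟩
      by_cases hd' : d ∈ e.1
      · exact (top_append_cons (l₁ := []) hd' (by simp)).trans
          (top_append_cons (l₁ := []) hd' (by simp)).symm
      · exact (top_append_of_not_mem (Λ := [e]) (by simpa using hd') _).trans ((ih.2 d hd).trans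
          (top_append_of_not_mem (Λ := [e]) (by simpa using hd') _).symm)

theorem dual_pop_sum (Ω : List Entry) (S : List ℕ) (F : Entry → ℤ) (hF : ∀ c, F ([c], []) = 0)
    (hS : S.Pairwise fun c d => d ∉ blk Ω c) :
    ((pop Ω S).map F).sum = (Ω.map F).sum - (S.map fun c => F (top Ω c)).sum := by
  induction S generalizing Ω with
  | nil => simp [pop]
  | cons c S ih =>
    obtain ⟨h1, h2⟩ := List.pairwise_cons.1 hS
    obtain ⟨h3, h4⟩ := dual_erase Ω c F (hF c)
    have h5 := ih (Ω.eraseIdx (Ω.findIdx fun e => e.1.contains c))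
      (h2.imp_of_mem fun {a b} ha _ hab => by rwa [blk, h4 a (h1 a ha)])
    have h6 : pop Ω (c :: S) = pop (Ω.eraseIdx (Ω.findIdx fun e => e.1.contains c)) S := rfl
    rw [h6, h5, h3, List.map_cons, List.sum_cons,
      List.map_congr_left fun a ha => congrArg F (h4 a (h1 a ha))]
    ring

theorem dual_near {E E' : List (ℕ × ℕ)} {B B' : List ℕ} {x : ℕ} {f f' : ℕ → ℕ} (h : Near E B x f)
    (hB : ∀ v, v ∈ B' ↔ v ∈ B) (hf : ∀ v ∈ B, f' v = f v)
    (hE : ∀ u ∈ B, ∀ v ∈ B, u ≠ v → (u, v) ∈ E → (u, v) ∈ E') : Near E' B' x f' := by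
  refine ⟨fun v hv => ?_, fun v hv => ?_⟩
  · have hv' := (hB v).1 hv
    obtain ⟨h1, h2, h3⟩ := h.1 v hv'
    rw [hf v hv', hf _ h1]
    exact ⟨(hB _).2 h1, h2, fun h4 => hE _ hv' _ h1 (Ne.symm h4) (h3 h4)⟩
  · rw [hf v ((hB v).1 hv)]
    exact h.2 v ((hB v).1 hv)

section

variable {N : ℕ} {τ : List (ℕ × ℕ)} {Γ : List Entry}

theorem dual_mem_copy {c v : ℕ} : v ∈ (copy N Γ c).1 ↔ v < N ∧ rep Γ v = c := by simp [copy]

theorem dual_mem_blk (h : Lam N τ Γ) {c v : ℕ} (hc : c ∈ nodes N Γ) :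
    v ∈ blk Γ c ↔ v < N ∧ rep Γ v = c := by
  obtain ⟨h1, h2⟩ := mem_nodes.1 hc
  refine ⟨fun hv => ⟨blk_lt h h1 hv, ((rep_eq_iff h.2).2 hv).trans h2⟩, fun hv => ?_⟩
  exact (rep_eq_iff h.2).1 (hv.2.trans h2.symm)

theorem dual_row_copy (h : Lam N τ Γ) {c x v : ℕ} (hc : c < N) (hx : x ∈ blk Γ c) (hv : v ∈ blk Γ c) :
    row (copy N Γ c) x v = tbl Γ x v := by
  have h1 := blk_lt h hc hx
  have h2 : (copy N Γ c).2.getD x [] = tab N (tbl Γ x) := by
    simp [copy, List.getD_eq_getElem?_getD, h1]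
  rw [row, h2]
  exact fn_tab (blk_lt h hc hv) (blk_lt h hc ((tbl_near h hc hx).1 v hv).1).le

theorem dual_length_copy (c : ℕ) :
    ((copy N Γ c).1.length : ℤ) = ∑ v ∈ Finset.range N, if rep Γ v = c then (1 : ℤ) else 0 := by
  unfold copy
  induction N with
  | zero => simp
  | succ N ih =>
    rw [Finset.sum_range_succ, ← ih, List.range_succ, List.filter_append]
    by_cases h : rep Γ N = c <;> simp [h]

theorem dual_length_blk (h : Lam N τ Γ) {c : ℕ} (hc : c ∈ nodes N Γ) :
    (blk Γ c).length = (copy N Γ c).1.length := by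
  refine List.Perm.length_eq ((List.perm_ext_iff_of_nodup (blk_nodup h (mem_nodes.1 hc).1)
    (List.nodup_range.filter _)).2 fun v => ?_)
  exact (dual_mem_blk h hc).trans dual_mem_copy.symm

theorem dual_sum_copy {L : List ℕ} (hL : L.Nodup) :
    (L.map fun c => ((copy N Γ c).1.length : ℤ) - 1).sum =
      (∑ v ∈ Finset.range N, if rep Γ v ∈ L then (1 : ℤ) else 0) - L.length := by
  have h1 : ∀ L : List ℕ, (L.map fun c => ((copy N Γ c).1.length : ℤ) - 1).sum =
      (∑ v ∈ Finset.range N, (L.map fun c => if rep Γ v = c then (1 : ℤ) else 0).sum) - L.length := by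
    intro L
    induction L with
    | nil => simp
    | cons c L ih =>
      rw [List.map_cons, List.sum_cons, ih, dual_length_copy]
      simp only [List.map_cons, List.sum_cons, Finset.sum_add_distrib, List.length_cons]
      push_cast
      ring
  rw [h1]
  simp only [dual_sum_ind hL]

end

theorem dual_parity {Γ : List Entry} (h : Lam (2 * g.length) (tight g y Ω) Γ) {v : ℕ}
    (hv : v < 2 * g.length) : y.getD (rep Γ v) 0 % 2 = y.getD v 0 % 2 := by
  have hφ : ∀ u v, (u, v) ∈ tight g y Ω →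
      ((y.getD u 0 : ℤ) : ZMod 2) + ((y.getD v 0 : ℤ) : ZMod 2) = 0 := fun u v huv => by
    have h1 := (mem_tight.1 huv).2.2
    unfold slack at h1
    rw [← Int.cast_add, ZMod.intCast_zmod_eq_zero_iff_dvd]
    exact ⟨om g u v - cnt Ω u v, by push_cast; linarith⟩
  have h1 := (tbl_near h hv (mem_blk Γ v)).sum_eq (mem_blk Γ v) _ hφ
  have h2 := (tbl_near h hv (rep_mem Γ v)).sum_eq (rep_mem Γ v) _ hφ
  exact (ZMod.intCast_eq_intCast_iff' _ _ 2).1 (h2.symm.trans h1)

/-- the dual step for abstract lists `S`, `T` -/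
theorem dual_core (hg : Symm g) {S T : List ℕ} {p : ℤ} (hF : Feas g y Ω)
    (h : Lam (2 * g.length) (tight g y Ω) (Λ ++ Ω)) (hSn : S.Nodup) (hTn : T.Nodup)
    (hSU : S ⊆ nodes (2 * g.length) (Λ ++ Ω)) (hTU : T ⊆ nodes (2 * g.length) (Λ ++ Ω))
    (hST : S.Disjoint T) (hlen : S.length < T.length) (hTp : ∀ c ∈ T, y.getD c 0 % 2 = p)
    (hnbr : ∀ u v, (u, v) ∈ tight g y Ω → rep (Λ ++ Ω) u ∈ T → rep (Λ ++ Ω) u ≠ rep (Λ ++ Ω) v →
      rep (Λ ++ Ω) v ∈ S)
    (hS : ∀ c ∈ S, ∀ e ∈ Λ, c ∉ e.1) (y' : List ℤ) (Ω' : List Entry)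
    (hy : y' = newY (2 * g.length) y (Λ ++ Ω) S T) (hΩ : Ω' = newOm (2 * g.length) Ω (Λ ++ Ω) S T) :
    Feas g y' Ω' ∧ Lam (2 * g.length) (tight g y' Ω') Ω' ∧
      obj (2 * g.length) y' Ω' < obj (2 * g.length) y Ω := by
  have htop : ∀ c ∈ S, top Ω c = top (Λ ++ Ω) c := fun c hc =>
    (top_append_of_not_mem (hS c hc) Ω).symm
  generalize hΓ : Λ ++ Ω = Γ at *
  have hΩΓ : Ω.Sublist Γ := hΓ ▸ List.sublist_append_right _ _
  have hy' : ∀ v < 2 * g.length, y'.getD v 0 = y.getD v 0 - (if rep Γ v ∈ T then 1 else 0) +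
      (if rep Γ v ∈ S then 1 else 0) := fun v hv => by
    have h1 : y'.getD v 0 = if T.contains (rep Γ v) then y.getD v 0 - 1
        else if S.contains (rep Γ v) then y.getD v 0 + 1 else y.getD v 0 := by
      rw [hy, newY, List.getD_eq_getElem?_getD, List.getElem?_map, List.getElem?_range hv]
      rfl
    rw [h1]
    by_cases hT : rep Γ v ∈ T
    · have hS' : rep Γ v ∉ S := fun hh => hST hh hT
      simp [hT, hS']
    · by_cases hS' : rep Γ v ∈ S <;> simp [hT, hS']
  have hpair : S.Pairwise fun c d => d ∉ blk Ω c :=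
    hSn.imp_of_mem fun {c d} hc hd hcd hb => by
      rw [blk, htop c hc] at hb
      exact hcd (((dual_mem_blk h (hSU hc)).1 hb).2.symm.trans (mem_nodes.1 (hSU hd)).2)
  have hcnt : ∀ u v, u < 2 * g.length → v < 2 * g.length → u ≠ v → (cnt Ω' u v : ℤ) = cnt Ω u v +
      if rep Γ u = rep Γ v then (if rep Γ u ∈ T then 1 else 0) - (if rep Γ u ∈ S then 1 else 0)
      else 0 := fun u v hu hv huv => by
    rw [dual_cnt, dual_cnt, hΩ, newOm, List.map_append, List.sum_append, List.map_map,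
      dual_pop_sum Ω S _ (fun c => by
        rw [if_neg]
        simp only [List.mem_singleton]
        omega) hpair]
    have e1 : (T.map ((fun e : Entry => if u ∈ e.1 ∧ v ∈ e.1 then (1 : ℤ) else 0) ∘
        copy (2 * g.length) Γ)) = T.map fun c => if rep Γ u = c ∧ rep Γ v = c then (1 : ℤ) else 0 :=
      List.map_congr_left fun c _ => by simp [dual_mem_copy, hu, hv]
    have e2 : (S.map fun c => if u ∈ (top Ω c).1 ∧ v ∈ (top Ω c).1 then (1 : ℤ) else 0) =
        S.map fun c => if rep Γ u = c ∧ rep Γ v = c then (1 : ℤ) else 0 :=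
      List.map_congr_left fun c hc => by
        have h1 := fun w => dual_mem_blk h (hSU hc) (v := w)
        unfold blk at h1
        simp [htop c hc, h1, hu, hv]
    rw [e1, e2]
    by_cases h1 : rep Γ u = rep Γ v
    · rw [if_pos h1]
      simp only [← h1, and_self, dual_sum_ind hTn, dual_sum_ind hSn]
      ring
    · have e3 : ∀ c, ¬ (rep Γ u = c ∧ rep Γ v = c) := fun c hc => h1 (hc.1.trans hc.2.symm)
      simp [e3, h1]
  have hsame : ∀ u v, u < 2 * g.length → v < 2 * g.length → u ≠ v → rep Γ u = rep Γ v →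
      slack g y' Ω' u v = slack g y Ω u v := fun u v hu hv huv he => by
    unfold slack
    rw [hy' u hu, hy' v hv, hcnt u v hu hv huv, if_pos he, ← he]
    ring
  have hdiff : ∀ u v, u < 2 * g.length → v < 2 * g.length → rep Γ u ≠ rep Γ v →
      slack g y' Ω' u v = slack g y Ω u v -
        (if rep Γ u ∈ T then 1 else 0) + (if rep Γ u ∈ S then 1 else 0) -
        (if rep Γ v ∈ T then 1 else 0) + (if rep Γ v ∈ S then 1 else 0) := fun u v hu hv he => by
    unfold slack
    rw [hy' u hu, hy' v hv, hcnt u v hu hv (fun e => he (congrArg _ e)), if_neg he]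
    ring
  have htight : ∀ c < 2 * g.length, ∀ u ∈ blk Γ c, ∀ v ∈ blk Γ c, u ≠ v → (u, v) ∈ tight g y Ω →
      (u, v) ∈ tight g y' Ω' := fun c _ u hu v hv huv ht => by
    obtain ⟨h1, h2, h3⟩ := mem_tight.1 ht
    refine mem_tight.2 ⟨h1, h2, ?_⟩
    rw [hsame u v h1 h2 huv (((rep_eq_iff h.2).2 hu).trans ((rep_eq_iff h.2).2 hv).symm), h3]
  refine ⟨fun u v hu hv huv => ?_, ⟨fun e he => ?_, ?_⟩, ?_⟩
  · have h0 := hF u v hu hv huv
    by_cases he : rep Γ u = rep Γ v
    · rwa [hsame u v hu hv huv he]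
    rw [hdiff u v hu hv he]
    have h1 : rep Γ u ∈ T → rep Γ v ∉ S → slack g y Ω u v ≠ 0 := fun a b c =>
      b (hnbr u v (mem_tight.2 ⟨hu, hv, c⟩) a he)
    have h2 : rep Γ v ∈ T → rep Γ u ∉ S → slack g y Ω u v ≠ 0 := fun a b c =>
      b (hnbr v u (mem_tight.2 ⟨hv, hu, by rwa [slack_symm hg]⟩) a (Ne.symm he))
    have h3 : rep Γ u ∈ T → rep Γ v ∈ T → slack g y Ω u v % 2 = 0 := fun a b => by
      have h4 := hTp _ a
      have h5 := hTp _ b
      rw [dual_parity h hu] at h4
      rw [dual_parity h hv] at h5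
      unfold slack
      omega
    have h4 : rep Γ u ∈ S → rep Γ u ∉ T := fun a => hST a
    have h5 : rep Γ v ∈ S → rep Γ v ∉ T := fun a => hST a
    by_cases a : rep Γ u ∈ T <;> by_cases b : rep Γ u ∈ S <;> by_cases c : rep Γ v ∈ T <;>
      by_cases d : rep Γ v ∈ S <;> simp only [a, b, c, d, if_true, if_false, not_true, not_false_iff,
        forall_true_left, IsEmpty.forall_iff] at h1 h2 h3 h4 h5 ⊢ <;> omega
  · rw [hΩ, newOm] at he
    rcases List.mem_append.1 he with he | he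
    · obtain ⟨c, hc, rfl⟩ := List.mem_map.1 he
      obtain ⟨h1, h2⟩ := mem_nodes.1 (hTU hc)
      have hm : ∀ v, v ∈ (copy (2 * g.length) Γ c).1 ↔ v ∈ blk Γ c := fun v =>
        dual_mem_copy.trans (dual_mem_blk h (hTU hc)).symm
      refine ⟨List.nodup_range.filter _, List.ne_nil_of_mem (dual_mem_copy.2 ⟨h1, h2⟩),
        fun v hv => (dual_mem_copy.1 hv).1, fun x hx => ?_⟩
      exact dual_near (tbl_near h h1 ((hm x).1 hx)) hm
        (fun v hv => dual_row_copy h h1 ((hm x).1 hx) hv) (htight c h1)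
    · have he' := hΩΓ.subset ((dual_pop_sublist Ω S).subset he)
      obtain ⟨h1, h2, h3, h4⟩ := h.1 e he'
      refine ⟨h1, h2, h3, fun x hx => dual_near (h4 x hx) (fun _ => Iff.rfl) (fun _ _ => rfl) ?_⟩
      exact fun u hu v hv => htight x (h3 x hx) u (sub_blk h.2 he' hx hu) v (sub_blk h.2 he' hx hv)
  · rw [hΩ, newOm]
    refine List.pairwise_append.2 ⟨List.pairwise_map.2 (hTn.imp fun {c d} hcd => Or.inl ?_),
      h.2.sublist ((dual_pop_sublist Ω S).trans hΩΓ), fun a ha e he => ?_⟩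
    · exact fun v h1 h2 => hcd ((dual_mem_copy.1 h1).2.symm.trans (dual_mem_copy.1 h2).2)
    · obtain ⟨c, hc, rfl⟩ := List.mem_map.1 ha
      have he' := hΩΓ.subset ((dual_pop_sublist Ω S).subset he)
      have h1 := (mem_nodes.1 (hTU hc)).1
      have hm : ∀ v, v ∈ (copy (2 * g.length) Γ c).1 ↔ v ∈ blk Γ c := fun v =>
        dual_mem_copy.trans (dual_mem_blk h (hTU hc)).symm
      rcases top_nest h c he' with h2 | ⟨h2, h3⟩
      · exact Or.inl fun v a b => h2 ((hm v).1 a) b
      · refine Or.inr ⟨fun v hv => (hm v).2 (h2 hv), fun x hx => ?_⟩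
        obtain ⟨z, hz, h4⟩ := h3 x ((hm x).1 hx)
        refine ⟨z, hz, fun v hv => ?_⟩
        rw [dual_row_copy h h1 ((hm x).1 hx) (h2 hv)]
        exact h4 v hv
  · unfold obj
    rw [Finset.sum_congr rfl fun v hv => hy' v (Finset.mem_range.1 hv), hΩ, newOm, List.map_append,
      List.sum_append, List.map_map, dual_pop_sum Ω S _ (fun c => by simp) hpair]
    have e2 : (S.map fun c => (((top Ω c).1.length : ℤ) - 1)) =
        S.map fun c => ((copy (2 * g.length) Γ c).1.length : ℤ) - 1 :=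
      List.map_congr_left fun c hc => by rw [htop c hc, ← dual_length_blk h (hSU hc), blk]
    have e1 := dual_sum_copy (N := 2 * g.length) (Γ := Γ) hTn
    have e3 := dual_sum_copy (N := 2 * g.length) (Γ := Γ) hSn
    have e4 : (S.length : ℤ) < T.length := by exact_mod_cast hlen
    rw [e2, e3, Function.comp_def, e1, Finset.sum_add_distrib, Finset.sum_sub_distrib]
    linarith

/-- the dual adjustment keeps feasibility and all tables, and lowers the objective -/
theorem dual_spec (hg : Symm g) {f : ℕ} {S T : List ℕ} (hf : 0 < f) (hF : Feas g y Ω)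
    (h : Lam (2 * g.length) (tight g y Ω) (Λ ++ Ω))
    (hB : Barrier (nodes (2 * g.length) (Λ ++ Ω)) (edges (2 * g.length) (tight g y Ω) (Λ ++ Ω))
      f S T) (hS : ∀ c ∈ S, ∀ e ∈ Λ, c ∉ e.1) (y' : List ℤ) (Ω' : List Entry)
    (hy : y' = newY (2 * g.length) y (Λ ++ Ω) (par y (pick y S T) S) (par y (pick y S T) T))
    (hΩ : Ω' = newOm (2 * g.length) Ω (Λ ++ Ω) (par y (pick y S T) S) (par y (pick y S T) T)) :
    Feas g y' Ω' ∧ Lam (2 * g.length) (tight g y' Ω') Ω' ∧
      obj (2 * g.length) y' Ω' < obj (2 * g.length) y Ω := by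
  refine dual_core hg (p := pick y S T) hF h (hB.nodupS.filter _) (hB.nodupT.filter _)
    (fun c hc => hB.subS (dual_mem_par.1 hc).1) (fun c hc => hB.subT (dual_mem_par.1 hc).1)
    (fun c h1 h2 => hB.disj (dual_mem_par.1 h1).1 (dual_mem_par.1 h2).1)
    (dual_pick (by rw [hB.card]; omega)) (fun c hc => (dual_mem_par.1 hc).2) (fun u v ht hu huv => ?_)
    (fun c hc => hS c (dual_mem_par.1 hc).1) y' Ω' hy hΩ
  obtain ⟨h1, h2, h3⟩ := mem_tight.1 ht
  obtain ⟨h4, h5⟩ := dual_mem_par.1 hu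
  have h6 := hB.nbr _ h4 _ (rep_mem_nodes h h2)
    (mem_edges.2 ⟨rep_mem_nodes h h1, rep_mem_nodes h h2, huv, u, v, ht, rfl, rfl⟩)
  refine dual_mem_par.2 ⟨h6.resolve_left (Ne.symm huv), ?_⟩
  rw [dual_parity h h1] at h5
  rw [dual_parity h h2, ← h5]
  unfold slack at h3
  omega

end Crest.Agent.Lib.Matching
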