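import Crest.Agent.Lib.Matching.Base

/-! One search for an augmenting path, a blossom or a barrier in a simple graph. -/

set_option autoImplicit false

namespace Crest.Agent.Lib.Matching

/-- `b` is an odd cycle of `E` inside `U` -/
structure Cyc (U : List ℕ) (E : List (ℕ × ℕ)) (b : List ℕ) : Prop where
  nodup : b.Nodup
  sub : b ⊆ U
  three : 3 ≤ b.length
  near : ∀ c ∈ b, Near E b c (cyct b c)
  out : ∀ c v, v ∉ b → cyct b c v = v

/-- `S`, `T` certify that no matching exposes fewer than `f` members of `U` -/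
structure Barrier (U : List ℕ) (E : List (ℕ × ℕ)) (f : ℕ) (S T : List ℕ) : Prop where
  nodupS : S.Nodup
  nodupT : T.Nodup
  subS : S ⊆ U
  subT : T ⊆ U
  disj : S.Disjoint T
  card : T.length = S.length + f
  nbr : ∀ t ∈ T, ∀ v ∈ U, (t, v) ∈ E → v = t ∨ v ∈ S

section aux

variable {U : List ℕ} {E : List (ℕ × ℕ)} {m : ℕ → ℕ}

theorem search_pairUp_out {l : List ℕ} {v : ℕ} (h : v ∉ l) : pairUp l v = v := by
  simp [pairUp, h]

theorem search_pairUp_get {l : List ℕ} (hl : l.Nodup) {i j : ℕ} (hi : i < l.length) (hj : j < l.length)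
    (e : j = if i % 2 = 0 then i + 1 else i - 1) : pairUp l l[i] = l[j] := by
  have h1 : l.contains l[i] = true := by simp
  rw [pairUp, if_pos h1, hl.idxOf_getElem i hi, ← e, List.getD_eq_getElem _ _ hj]

theorem search_pairUp (hE : ∀ u v, (u, v) ∈ E → (v, u) ∈ E) {l : List ℕ} (hl : l.Nodup)
    (he : l.length % 2 = 0) (hc : l.IsChain fun a b => (a, b) ∈ E) {v : ℕ} (hv : v ∈ l) :
    pairUp l v ∈ l ∧ pairUp l (pairUp l v) = v ∧ pairUp l v ≠ v ∧ (v, pairUp l v) ∈ E := by
  obtain ⟨i, hi, rfl⟩ := List.getElem_of_mem hv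
  rw [List.isChain_iff_getElem] at hc
  by_cases h : i % 2 = 0
  · have hj : i + 1 < l.length := by omega
    rw [search_pairUp_get hl hi hj (by simp [h]),
      search_pairUp_get hl hj hi (by rw [if_neg (by omega)]; omega)]
    exact ⟨List.getElem_mem _, rfl, fun e => by have := (hl.getElem_inj_iff).1 e; omega, hc i hj⟩
  · obtain ⟨j, rfl⟩ : ∃ j, i = j + 1 := ⟨i - 1, by omega⟩
    have hj : j < l.length := by omega
    rw [search_pairUp_get hl hi hj (by simp [h]),
      search_pairUp_get hl hj hi (by rw [if_pos (by omega)])]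
    exact ⟨List.getElem_mem _, rfl, fun e => by have := (hl.getElem_inj_iff).1 e; omega,
      hE _ _ (hc j hi)⟩

/-- alternating paths from an outer node to a root -/
inductive SearchAlt (E : List (ℕ × ℕ)) (m : ℕ → ℕ) (T S : List ℕ) : List ℕ → Prop
  | root (r : ℕ) : m r = r → r ∈ T → SearchAlt E m T S [r]
  | cons (t s p : ℕ) (rest : List ℕ) : m t = s → m s = t → s ≠ t → (t, s) ∈ E → (s, p) ∈ E → t ∈ T →
      s ∈ S → t ∉ p :: rest → s ∉ p :: rest → SearchAlt E m T S (p :: rest) →
      SearchAlt E m T S (t :: s :: p :: rest)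

variable {T S l : List ℕ}

theorem SearchAlt.mono {T' S' : List ℕ} (h : SearchAlt E m T S l) (hT : T ⊆ T') (hS : S ⊆ S') :
    SearchAlt E m T' S' l := by
  induction h with
  | root r h1 h2 => exact .root r h1 (hT h2)
  | cons t s p rest h1 h2 h3 h4 h5 h6 h7 h8 h9 _ ih =>
    exact .cons t s p rest h1 h2 h3 h4 h5 (hT h6) (hS h7) h8 h9 ih

theorem SearchAlt.basic (h : SearchAlt E m T S l) :
    l.Nodup ∧ (∀ v ∈ l, m v ∈ l) ∧ (l.IsChain fun a b => (a, b) ∈ E) ∧ l.length % 2 = 1 ∧
      (∀ v ∈ l, v ∈ T ∨ v ∈ S) ∧ ∃ r ∈ l, ∀ v ∈ l, m v = v ↔ v = r := by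
  induction h with
  | root r h1 h2 => simp [h1, h2]
  | cons t s p rest h1 h2 h3 h4 h5 h6 h7 h8 h9 _ ih =>
    obtain ⟨a1, a2, a3, a4, a5, r, hr, a6⟩ := ih
    refine ⟨?_, ?_, ?_, ?_, ?_, r, by simp only [List.mem_cons] at hr ⊢; tauto, ?_⟩
    · refine List.nodup_cons.2 ⟨fun e => ?_, List.nodup_cons.2 ⟨h9, a1⟩⟩
      rcases List.mem_cons.1 e with e | e
      · exact h3 e.symm
      · exact h8 e
    · intro v hv
      rcases List.mem_cons.1 hv with rfl | hv
      · simp [h1]
      rcases List.mem_cons.1 hv with rfl | hv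
      · simp [h2]
      · exact List.mem_cons_of_mem _ (List.mem_cons_of_mem _ (a2 v hv))
    · exact List.IsChain.cons_cons h4 (List.IsChain.cons_cons h5 a3)
    · simp only [List.length_cons] at a4 ⊢
      omega
    · intro v hv
      rcases List.mem_cons.1 hv with rfl | hv
      · exact Or.inl h6
      rcases List.mem_cons.1 hv with rfl | hv
      · exact Or.inr h7
      · exact a5 v hv
    · intro v hv
      rcases List.mem_cons.1 hv with rfl | hv
      · exact iff_of_false (fun e => h3 (h1.symm.trans e)) fun e => h8 (e ▸ hr)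
      rcases List.mem_cons.1 hv with rfl | hv
      · exact iff_of_false (fun e => h3 (h2.symm.trans e).symm) fun e => h9 (e ▸ hr)
      · exact a6 v hv

theorem SearchAlt.split_outer (hd : S.Disjoint T) (h : SearchAlt E m T S l) {x : ℕ} (hx : x ∈ l)
    (hT : x ∈ T) : ∃ pre suf, l = pre ++ x :: suf ∧ SearchAlt E m T S (x :: suf) ∧
      pre.length % 2 = 0 ∧ ∀ v ∈ pre, m v ∈ pre ∧ m v ≠ v := by
  induction h with
  | root r h1 h2 =>
    obtain rfl : x = r := by simpa using hx
    exact ⟨[], [], rfl, .root x h1 h2, rfl, by simp⟩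
  | cons t s p rest h1 h2 h3 h4 h5 h6 h7 h8 h9 h10 ih =>
    rcases List.mem_cons.1 hx with rfl | hx
    · exact ⟨[], _, rfl, .cons x s p rest h1 h2 h3 h4 h5 h6 h7 h8 h9 h10, rfl, by simp⟩
    rcases List.mem_cons.1 hx with rfl | hx
    · exact absurd hT (hd h7)
    obtain ⟨pre, suf, e, a1, a2, a3⟩ := ih hx
    refine ⟨t :: s :: pre, suf, by rw [e]; rfl, a1, by simp only [List.length_cons]; omega, ?_⟩
    intro v hv
    rcases List.mem_cons.1 hv with rfl | hv
    · exact ⟨by simp [h1], by rw [h1]; exact h3⟩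
    rcases List.mem_cons.1 hv with rfl | hv
    · exact ⟨by simp [h2], by rw [h2]; exact h3.symm⟩
    · exact ⟨List.mem_cons_of_mem _ (List.mem_cons_of_mem _ (a3 v hv).1), (a3 v hv).2⟩

theorem SearchAlt.split_inner (hd : S.Disjoint T) (h : SearchAlt E m T S l) {x : ℕ} (hx : x ∈ l)
    (hS : x ∈ S) : ∃ pre suf, l = pre ++ x :: suf ∧ m x ∈ pre := by
  induction h with
  | root r h1 h2 =>
    obtain rfl : x = r := by simpa using hx
    exact absurd h2 (hd hS)
  | cons t s p rest h1 h2 h3 h4 h5 h6 h7 h8 h9 h10 ih =>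
    rcases List.mem_cons.1 hx with rfl | hx
    · exact absurd h6 (hd hS)
    rcases List.mem_cons.1 hx with rfl | hx
    · exact ⟨[t], _, rfl, by simp [h2]⟩
    obtain ⟨pre, suf, e, a1⟩ := ih hx
    exact ⟨t :: s :: pre, suf, by rw [e]; rfl, by simp [a1]⟩

/-- the invariant of the forest -/
structure SearchInv (U : List ℕ) (E : List (ℕ × ℕ)) (m : ℕ → ℕ) (s : List (List ℕ) × List ℕ) : Prop where
  nodupT : (heads s.1).Nodup
  nodupS : s.2.Nodup
  subT : heads s.1 ⊆ U
  subS : s.2 ⊆ U
  disj : s.2.Disjoint (heads s.1)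
  exp : ∀ v ∈ U, m v = v → v ∈ heads s.1
  outer : ∀ t ∈ heads s.1, m t = t ∨ m t ∈ s.2
  inner : ∀ u ∈ s.2, m u ∈ heads s.1
  card : (heads s.1).length = s.2.length + fr U m
  alt : ∀ p ∈ s.1, SearchAlt E m (heads s.1) s.2 p

/-- the forest cannot grow -/
def SearchStuck (U : List ℕ) (E : List (ℕ × ℕ)) (s : List (List ℕ) × List ℕ) : Prop :=
  ∀ p ∈ s.1, ∀ u ∈ U, (p.headD 0, u) ∈ E → u ∈ heads s.1 ∨ u ∈ s.2

theorem search_grow {μ : List ℕ} (hE : ∀ u v, (u, v) ∈ E → (v, u) ∈ E) (hμ : Mt U E (fn μ))
    {s : List (List ℕ) × List ℕ} (h : SearchInv U E (fn μ) s) :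
    SearchInv U E (fn μ) (grow U E μ s) ∧
      ((SearchStuck U E s ∧ grow U E μ s = s) ∨
        (¬ SearchStuck U E s ∧ (grow U E μ s).2.length = s.2.length + 1)) := by
  unfold grow
  cases e : (s.1.product U).find? _ with
  | none =>
    refine ⟨h, Or.inl ⟨fun p hp u hu hE' => ?_, rfl⟩⟩
    have := List.find?_eq_none.1 e (p, u) (List.pair_mem_product.2 ⟨hp, hu⟩)
    by_contra hc
    rw [not_or] at hc
    simp [hc.1, hc.2] at this
    exact this (by simpa using hE')
  | some q =>
    obtain ⟨p, u⟩ := q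
    have h1 := List.find?_some e
    obtain ⟨hp, hu⟩ := List.pair_mem_product.1 (List.mem_of_find?_eq_some e)
    simp only [Bool.and_eq_true, List.contains_eq_mem, decide_eq_true_eq, Bool.not_eq_true',
      decide_eq_false_iff_not] at h1
    obtain ⟨⟨a1, a2⟩, a3⟩ := h1
    obtain ⟨b1, b2, b3⟩ := hμ u hu
    have c1 : fn μ u ≠ u := fun e => a2 (h.exp u hu e)
    have c2 : fn μ u ∉ heads s.1 := fun e => by
      rcases h.outer _ e with e' | e'
      · exact c1 (b2.symm.trans e').symm
      · exact a3 (b2 ▸ e')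
    have c3 : fn μ u ∉ s.2 := fun e => a2 (b2 ▸ h.inner _ e)
    have hh : heads ((fn μ u :: u :: p) :: s.1) = fn μ u :: heads s.1 := rfl
    refine ⟨?_, Or.inr ⟨fun hs => (hs p hp u hu a1).elim a2 a3, rfl⟩⟩
    simp only [Option.map_some, Option.getD_some]
    refine ⟨?_, ?_, ?_, ?_, ?_, ?_, ?_, ?_, ?_, ?_⟩ <;> simp only [hh]
    · exact List.nodup_cons.2 ⟨c2, h.nodupT⟩
    · exact List.nodup_cons.2 ⟨a3, h.nodupS⟩
    · exact List.cons_subset.2 ⟨b1, h.subT⟩
    · exact List.cons_subset.2 ⟨hu, h.subS⟩
    · intro v hv hv'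
      rcases List.mem_cons.1 hv with rfl | hv <;> rcases List.mem_cons.1 hv' with e' | hv'
      · exact c1 e'.symm
      · exact a2 hv'
      · exact c3 (e' ▸ hv)
      · exact h.disj hv hv'
    · exact fun v hv e' => List.mem_cons_of_mem _ (h.exp v hv e')
    · intro t ht
      rcases List.mem_cons.1 ht with rfl | ht
      · exact Or.inr (by simp [b2])
      · exact (h.outer t ht).imp id (List.mem_cons_of_mem _)
    · intro v hv
      rcases List.mem_cons.1 hv with rfl | hv
      · exact List.mem_cons_self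
      · exact List.mem_cons_of_mem _ (h.inner v hv)
    · simp only [List.length_cons, h.card]
      omega
    · intro p' hp'
      rcases List.mem_cons.1 hp' with rfl | hp'
      · have hA := h.alt p hp
        have hB := hA.basic.2.2.2.2.1
        cases p with
        | nil => cases hA
        | cons x rest =>
          exact .cons _ u x rest b2 rfl c1.symm (hE _ _ (b3 c1)) (hE _ _ a1) List.mem_cons_self
            List.mem_cons_self (fun e' => (hB _ e').elim c2 c3) (fun e' => (hB _ e').elim a2 a3)
            (hA.mono (List.subset_cons_self _ _) (List.subset_cons_self _ _))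
      · exact (h.alt p' hp').mono (List.subset_cons_self _ _) (List.subset_cons_self _ _)

theorem search_forest {μ : List ℕ} (hU : U.Nodup) (hE : ∀ u v, (u, v) ∈ E → (v, u) ∈ E)
    (hμ : Mt U E (fn μ)) : SearchInv U E (fn μ) (forest U E μ) ∧ SearchStuck U E (forest U E μ) := by
  have key : ∀ i, SearchInv U E (fn μ)
      ((grow U E μ)^[i] ((U.filter (fun v => fn μ v == v)).map (fun v => [v]), [])) ∧
      (SearchStuck U E ((grow U E μ)^[i] ((U.filter (fun v => fn μ v == v)).map (fun v => [v]), [])) ∨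
        ((grow U E μ)^[i] ((U.filter (fun v => fn μ v == v)).map (fun v => [v]), [])).2.length = i) := by
    intro i
    induction i with
    | zero =>
      have hh : heads ((U.filter (fun v => fn μ v == v)).map (fun v => [v])) =
          U.filter (fun v => fn μ v == v) := by simp [heads, Function.comp_def]
      refine ⟨⟨?_, ?_, ?_, ?_, ?_, ?_, ?_, ?_, ?_, ?_⟩, Or.inr rfl⟩ <;>
        simp only [Function.iterate_zero, id, hh]
      · exact hU.filter _
      · exact List.nodup_nil
      · exact List.filter_subset_self _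
      · exact List.nil_subset _
      · exact List.disjoint_nil_left _
      · intro v hv e
        simp [hv, e]
      · intro t ht
        exact Or.inl (by simpa using (List.mem_filter.1 ht).2)
      · simp
      · simp [fr, List.countP_eq_length_filter]
      · intro p hp
        obtain ⟨v, hv, rfl⟩ := List.mem_map.1 hp
        exact .root v (by simpa using (List.mem_filter.1 hv).2) hv
    | succ i ih =>
      rw [Function.iterate_succ_apply']
      obtain ⟨h1, h2⟩ := search_grow hE hμ ih.1
      refine ⟨h1, ?_⟩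
      rcases h2 with ⟨h2, h3⟩ | ⟨h2, h3⟩
      · exact Or.inl (h3.symm ▸ h2)
      · exact Or.inr (by rw [h3, ih.2.resolve_left h2])
  obtain ⟨h1, h2⟩ := key U.length
  refine ⟨h1, h2.elim id fun h2 p _ u hu _ => Or.inr ?_⟩
  exact ((List.subperm_of_subset h1.nodupS h1.subS).perm_of_length_le h2.ge).mem_iff.2 hu

/-- modifying a matching on a closed list -/
theorem search_mt {N : ℕ} (hN : ∀ v ∈ U, v < N) (hm : Mt U E m) {l : List ℕ} (hl : l ⊆ U)
    (hc : ∀ v ∈ l, m v ∈ l) {f : ℕ → ℕ} (hf : Mt l E f) :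
    (∀ v ∈ U, fn (tab N fun v => if l.contains v then f v else m v) v = if v ∈ l then f v else m v) ∧
      Mt U E (fn (tab N fun v => if l.contains v then f v else m v)) := by
  have h1 : ∀ v ∈ U, (if v ∈ l then f v else m v) ∈ U := fun v hv => by
    split_ifs with h
    · exact hl (hf v h).1
    · exact (hm v hv).1
  have h2 : ∀ v ∈ U, fn (tab N fun v => if l.contains v then f v else m v) v =
      if v ∈ l then f v else m v := fun v hv => by
    rw [fn_tab (hN v hv) (by simpa using (hN _ (h1 v hv)).le)]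
    simp
  refine ⟨h2, fun v hv => ?_⟩
  rw [h2 v hv, h2 _ (h1 v hv)]
  refine ⟨h1 v hv, ?_⟩
  by_cases h : v ∈ l
  · simp only [if_pos h, if_pos (hf v h).1]
    exact (hf v h).2
  · have h3 : m v ∉ l := fun e => h ((hm v hv).2.1 ▸ hc _ e)
    simp only [if_neg h, if_neg h3]
    exact (hm v hv).2

theorem search_countP_lt {p q : ℕ → Bool} {l : List ℕ} (h : ∀ v ∈ l, p v → q v) {r : ℕ} (hr : r ∈ l)
    (h1 : q r) (h2 : ¬ p r) : l.countP p < l.countP q := by
  obtain ⟨a, b, rfl⟩ := List.append_of_mem hr
  have ha := List.countP_mono_left (l := a) fun v hv => h v (by simp [hv])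
  have hb := List.countP_mono_left (l := b) fun v hv => h v (by simp [hv])
  simp only [List.countP_append, List.countP_cons, h1, h2]
  simp
  omega

theorem search_countP_eq (hU : U.Nodup) {p q : ℕ → Bool} {l : List ℕ} {x r : ℕ} (hx : x ∈ U) (hr : r ∈ U)
    (hx' : x ∈ l) (hr' : r ∈ l) (h1 : ∀ v ∈ U, v ∈ l → (p v ↔ v = x)) (h2 : ∀ v ∈ U, v ∈ l → (q v ↔ v = r))
    (h3 : ∀ v ∈ U, v ∉ l → p v = q v) : U.countP p = U.countP q := by
  have key : ∀ {p : ℕ → Bool} {x : ℕ}, x ∈ U → x ∈ l → (∀ v ∈ U, v ∈ l → (p v ↔ v = x)) →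
      U.countP p = 1 + U.countP fun v => p v && !decide (v ∈ l) := by
    intro p x hx hx' h
    rw [← List.count_eq_one_of_mem hU hx, List.count_eq_countP,
      List.countP_eq_countP_filter_add U p fun v => decide (v ∈ l), List.countP_filter,
      List.countP_filter]
    congr 1
    refine List.countP_congr fun v hv => ?_
    by_cases e : v ∈ l
    · simpa [e] using h v hv e
    · have : v ≠ x := fun e' => e (e' ▸ hx')
      simp [e, this]
  rw [key hx hx' h1, key hr hr' h2]
  congr 1
  refine List.countP_congr fun v hv => ?_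
  by_cases e : v ∈ l
  · simp [e]
  · simp [h3 v hv e]

theorem search_cyc (hE : ∀ u v, (u, v) ∈ E → (v, u) ∈ E) {x : ℕ} {t : List ℕ} (h1 : (x :: t).Nodup)
    (h2 : x :: t ⊆ U) (h3 : t ≠ []) (h4 : t.length % 2 = 0)
    (h5 : (x :: t ++ [x]).IsChain fun a b => (a, b) ∈ E) : Cyc U E (x :: t) := by
  refine ⟨h1, h2, ?_, fun c hc => ?_, fun c v hv => search_pairUp_out fun e => hv ?_⟩
  · have := List.length_pos_of_ne_nil h3
    simp only [List.length_cons]
    omega
  · obtain ⟨A, B, e⟩ := List.append_of_mem hc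
    have hn := h1
    rw [e] at hn
    have hcA : c ∉ A := fun h => (List.nodup_append.1 hn).2.2 c h c List.mem_cons_self rfl
    have hcB : c ∉ B := (List.nodup_cons.1 (List.nodup_append.1 hn).2.1).1
    have hi : (A ++ c :: B).idxOf c = A.length := by
      rw [List.idxOf_append_of_notMem hcA, List.idxOf_cons_self, Nat.add_zero]
    have hl : cyct (x :: t) c = pairUp (B ++ A) := by
      rw [cyct, e, hi]
      simp
    have hn' : (B ++ A).Nodup := by
      refine List.nodup_append_comm.1 (hn.sublist ?_)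
      exact (List.sublist_cons_self c B).append_left A
    have hlen : (B ++ A).length % 2 = 0 := by
      have := congrArg List.length e
      simp only [List.length_cons, List.length_append] at this ⊢
      omega
    have hch : (B ++ A).IsChain fun a b => (a, b) ∈ E := by
      rw [e, List.append_assoc, List.cons_append] at h5
      have a1 := (List.isChain_append.1 h5).1
      have a2 := (List.isChain_append.1 h5).2.1.tail
      cases A with
      | nil => simpa using (List.isChain_append.1 a2).1
      | cons a A =>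
        obtain rfl : x = a := (List.cons.inj e).1
        exact List.isChain_split.2 ⟨a2, a1⟩
    have hcl : c ∉ B ++ A := by simp [hcA, hcB]
    have hmem : ∀ v, v ∈ x :: t ↔ v = c ∨ v ∈ B ++ A := fun v => by
      rw [e]
      simp only [List.mem_append, List.mem_cons]
      tauto
    rw [hl]
    refine ⟨fun v hv => ?_, fun v hv => ?_⟩
    · rcases (hmem v).1 hv with rfl | hv'
      · simp only [search_pairUp_out hcl]
        exact ⟨hv, trivial, fun h => absurd rfl h⟩
      · obtain ⟨a1, a2, -, a4⟩ := search_pairUp hE hn' hlen hch hv'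
        exact ⟨(hmem _).2 (Or.inr a1), a2, fun _ => a4⟩
    · rcases (hmem v).1 hv with rfl | hv'
      · simp [search_pairUp_out hcl]
      · exact iff_of_false (search_pairUp hE hn' hlen hch hv').2.2.1 fun e' => hcl (e' ▸ hv')
  · rcases List.mem_append.1 e with e | e
    · exact List.mem_of_mem_drop e
    · exact List.mem_of_mem_take e

theorem search_chain_rev (hE : ∀ u v, (u, v) ∈ E → (v, u) ∈ E) {p q : List ℕ}
    (hp : p.IsChain fun a b => (a, b) ∈ E) (hq : q.IsChain fun a b => (a, b) ∈ E)
    (h : (p.headD 0, q.headD 0) ∈ E) : (p.reverse ++ q).IsChain fun a b => (a, b) ∈ E := by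
  refine List.isChain_append.2 ⟨List.isChain_reverse.2 (hp.imp fun a b => hE a b), hq, ?_⟩
  intro a ha b hb
  rw [List.getLast?_reverse] at ha
  cases p with
  | nil => simp at ha
  | cons a' p =>
    cases q with
    | nil => simp at hb
    | cons b' q =>
      obtain rfl : a' = a := by simpa using ha
      obtain rfl : b' = b := by simpa using hb
      exact h

theorem search_join {N : ℕ} {μ : List ℕ} (hU : U.Nodup) (hN : ∀ v ∈ U, v < N)
    (hE : ∀ u v, (u, v) ∈ E → (v, u) ∈ E) (hμ : Mt U E (fn μ)) (hT : T ⊆ U) (hS : S ⊆ U)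
    (hd : S.Disjoint T) {p q : List ℕ} (hp : SearchAlt E (fn μ) T S p) (hq : SearchAlt E (fn μ) T S q)
    (hne : p.headD 0 ≠ q.headD 0) (hpq : (p.headD 0, q.headD 0) ∈ E) :
    ((join N μ p q).1 = 0 ∧ Mt U E (fn (join N μ p q).2.1) ∧
      fr U (fn (join N μ p q).2.1) < fr U (fn μ)) ∨
    ((join N μ p q).1 = 1 ∧ Mt U E (fn (join N μ p q).2.1) ∧
      fr U (fn (join N μ p q).2.1) = fr U (fn μ) ∧ Cyc U E (join N μ p q).2.2 ∧
      ∃ L ∈ (join N μ p q).2.2, ∀ v ∈ (join N μ p q).2.2,
        fn (join N μ p q).2.1 v ∈ (join N μ p q).2.2 ∧ (fn (join N μ p q).2.1 v = v ↔ v = L)) := by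
  obtain ⟨p1, p2, p3, p4, p5, rp, hrp, p6⟩ := hp.basic
  obtain ⟨q1, q2, q3, q4, q5, -⟩ := hq.basic
  have pU : p ⊆ U := fun v hv => (p5 v hv).elim (fun h => hT h) fun h => hS h
  have qU : q ⊆ U := fun v hv => (q5 v hv).elim (fun h => hT h) fun h => hS h
  unfold join
  split_ifs with hall
  · left
    have hdis : ∀ v ∈ q, v ∉ p := by simpa using hall
    have hn : (p.reverse ++ q).Nodup := List.nodup_append.2
      ⟨List.nodup_reverse.2 p1, q1, fun a ha b hb e => hdis b hb (e ▸ List.mem_reverse.1 ha)⟩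
    have hlen : (p.reverse ++ q).length % 2 = 0 := by
      simp only [List.length_append, List.length_reverse]
      omega
    have hP := fun v hv => search_pairUp hE hn hlen (search_chain_rev hE p3 q3 hpq) (v := v) hv
    obtain ⟨a1, a2⟩ := search_mt hN hμ (l := p.reverse ++ q) (f := pairUp (p.reverse ++ q))
      (List.append_subset.2 ⟨fun v hv => pU (List.mem_reverse.1 hv), qU⟩)
      (fun v hv => by
        simp only [List.mem_append, List.mem_reverse] at hv ⊢
        exact hv.imp (p2 v) (q2 v))
      fun v hv => ⟨(hP v hv).1, (hP v hv).2.1, fun _ => (hP v hv).2.2.2⟩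
    have hr : rp ∈ p.reverse ++ q := by simp [hrp]
    refine ⟨rfl, a2, search_countP_lt (r := rp) (fun v hv h => ?_) (pU hrp)
      (by simpa using (p6 rp hrp).2 rfl) ?_⟩
    · rw [a1 v hv] at h
      split_ifs at h with h'
      · exact absurd (by simpa using h) (hP v h').2.2.1
      · exact h
    · rw [a1 rp (pU hrp), if_pos hr]
      simpa using (hP rp hr).2.2.1
  · right
    have hne' : q.dropWhile (fun v => !p.contains v) ≠ [] := fun e =>
      hall (List.all_eq_true.2 (List.dropWhile_eq_nil_iff.1 e))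
    obtain ⟨x, sq, hx⟩ := List.exists_cons_of_ne_nil hne'
    have hm : meet p q = x := by rw [meet, hx]; rfl
    have hxp : x ∈ p := by
      have := List.head_dropWhile_not (fun v => !p.contains v) hne'
      simp only [hx, List.head_cons] at this
      simpa using this
    have hq' : q = q.takeWhile (fun v => !p.contains v) ++ x :: sq := by
      rw [← hx, List.takeWhile_append_dropWhile]
    have hpre : ∀ v ∈ q.takeWhile (fun v => !p.contains v), v ∉ p := fun v hv => by
      simpa using List.mem_takeWhile_imp hv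
    rw [hm]
    generalize q.takeWhile (fun v => !p.contains v) = preq at hq' hpre ⊢
    have huniq : ∀ pre suf, q = pre ++ x :: suf → pre = preq := fun pre suf e => by
      have hn := q1
      rw [e] at hn
      have h1 : x ∉ pre := fun h => (List.nodup_append.1 hn).2.2 x h x List.mem_cons_self rfl
      have h2 : x ∉ suf := (List.nodup_cons.1 (List.nodup_append.1 hn).2.1).1
      exact ((List.append_cons_inj_of_notMem h1 h2).1 (e.symm.trans hq')).1
    have hxq : x ∈ q := by rw [hq']; simp
    have hxT : x ∈ T := by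
      refine (p5 x hxp).resolve_right fun hxS => ?_
      obtain ⟨pre, suf, e, h⟩ := hq.split_inner hd hxq hxS
      exact hpre _ (huniq pre suf e ▸ h) (p2 x hxp)
    obtain ⟨pre', suf', e', -, b1, b2⟩ := hq.split_outer hd hxq hxT
    obtain rfl := huniq pre' suf' e'
    obtain ⟨prep, sp, ep, hst, c1, c2⟩ := hp.split_outer hd hxp hxT
    have hnp := p1
    rw [ep] at hnp
    have hxprep : x ∉ prep := fun h => (List.nodup_append.1 hnp).2.2 x h x List.mem_cons_self rfl
    have hall' : ∀ v ∈ prep, (v != x) = true := fun v hv => by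
      simpa using fun e : v = x => hxprep (e ▸ hv)
    have e1 : p.dropWhile (fun u => u != x) = x :: sp := by
      rw [ep, List.dropWhile_append_of_pos hall']
      simp
    have e2 : p.takeWhile (fun u => u != x) = prep := by
      rw [ep, List.takeWhile_append_of_pos hall']
      simp
    rw [e1, e2]
    obtain ⟨s1, s2, s3, s4, -, rs, hrs, s6⟩ := hst.basic
    have hxsp : x ∉ sp := (List.nodup_cons.1 s1).1
    have hP := fun v hv => search_pairUp hE (List.nodup_cons.1 s1).2
      (by simp only [List.length_cons] at s4; omega) s3.tail (v := v) hv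
    have hsp : x :: sp ⊆ p := by rw [ep]; exact List.subset_append_right _ _
    have hfix : ∀ v ∈ x :: sp, pairUp sp v = v ↔ v = x := fun v hv => by
      rcases List.mem_cons.1 hv with rfl | hv
      · simp [search_pairUp_out hxsp]
      · exact iff_of_false (hP v hv).2.2.1 fun e => hxsp (e ▸ hv)
    obtain ⟨a1, a2⟩ := search_mt hN hμ (l := x :: sp) (f := pairUp sp) (List.Subset.trans hsp pU) s2
      fun v hv => by
        rcases List.mem_cons.1 hv with rfl | hv
        · simp [search_pairUp_out hxsp]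
        · exact ⟨List.mem_cons_of_mem _ (hP v hv).1, (hP v hv).2.1, fun _ => (hP v hv).2.2.2⟩
    have hprep : prep ⊆ p := by rw [ep]; exact List.subset_append_left _ _
    have hpreq : pre' ⊆ q := by rw [hq']; exact List.subset_append_left _ _
    have hbU : x :: (prep.reverse ++ pre') ⊆ U := List.cons_subset.2 ⟨pU hxp,
      List.append_subset.2 ⟨fun v hv => pU (hprep (List.mem_reverse.1 hv)), List.Subset.trans hpreq qU⟩⟩
    refine ⟨rfl, a2, ?_, ?_, x, by simp, fun v hv => ?_⟩
    · refine search_countP_eq hU (l := x :: sp) (x := x) (r := rs) (pU hxp) (pU (hsp hrs))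
        List.mem_cons_self hrs (fun v hv h => ?_) (fun v _ h => by simpa using s6 v h) fun v hv h => ?_
      · simp only [List.tail_cons]
        rw [a1 v hv, if_pos h]
        simpa using hfix v h
      · simp only [List.tail_cons]
        rw [a1 v hv, if_neg h]
    · refine search_cyc hE (x := x) (t := prep.reverse ++ pre') ?_ hbU ?_ ?_ ?_
      · have hnq := q1
        rw [hq'] at hnq
        refine List.nodup_cons.2 ⟨?_, List.nodup_append.2 ⟨List.nodup_reverse.2
          (List.nodup_append.1 hnp).1, (List.nodup_append.1 hnq).1,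
          fun a ha b hb e => hpre b hb (e ▸ hprep (List.mem_reverse.1 ha))⟩⟩
        simp only [List.mem_append, List.mem_reverse, not_or]
        exact ⟨hxprep, fun h => hpre x h hxp⟩
      · intro e
        obtain ⟨e1, e2⟩ := List.append_eq_nil_iff.1 e
        rw [List.reverse_eq_nil_iff] at e1
        rw [ep, hq', e1, e2] at hne
        exact hne rfl
      · simp only [List.length_append, List.length_reverse]
        omega
      · have h1 : (prep ++ [x]).IsChain fun a b => (a, b) ∈ E := by
          rw [ep] at p3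
          exact (List.isChain_split.1 p3).1
        have h2 : (pre' ++ [x]).IsChain fun a b => (a, b) ∈ E := by
          rw [hq'] at q3
          exact (List.isChain_split.1 q3).1
        have h3 := search_chain_rev hE h1 h2 (by
          rw [ep, hq'] at hpq
          cases prep <;> cases pre' <;> exact hpq)
        simpa using h3
    · simp only [List.tail_cons]
      have hv' : v = x ∨ v ∈ prep ∨ v ∈ pre' := by simpa using hv
      rw [a1 v (hbU (by simpa using hv'))]
      rcases hv' with rfl | h | h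
      · simp [search_pairUp_out hxsp]
      · have h1 : v ∉ x :: sp := fun e => (List.nodup_append.1 hnp).2.2 v h v e rfl
        rw [if_neg h1]
        exact ⟨by simp [(c2 v h).1], iff_of_false (c2 v h).2 fun e => hxprep (e ▸ h)⟩
      · rw [if_neg fun e => hpre v h (hsp e)]
        exact ⟨by simp [(b2 v h).1], iff_of_false (b2 v h).2 fun e => hpre v h (e ▸ hxp)⟩

end aux

theorem search_spec {N : ℕ} {U : List ℕ} {E : List (ℕ × ℕ)} {μ : List ℕ} (hU : U.Nodup)
    (hN : ∀ v ∈ U, v < N) (hE : ∀ u v, (u, v) ∈ E → (v, u) ∈ E) (hμ : Mt U E (fn μ)) :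
    ((search N U E μ).1 = 0 ∧ Mt U E (fn (search N U E μ).2.1) ∧
      fr U (fn (search N U E μ).2.1) < fr U (fn μ)) ∨
    ((search N U E μ).1 = 1 ∧ Mt U E (fn (search N U E μ).2.1) ∧
      fr U (fn (search N U E μ).2.1) = fr U (fn μ) ∧ Cyc U E (search N U E μ).2.2 ∧
      ∃ L ∈ (search N U E μ).2.2, ∀ v ∈ (search N U E μ).2.2,
        fn (search N U E μ).2.1 v ∈ (search N U E μ).2.2 ∧
          (fn (search N U E μ).2.1 v = v ↔ v = L)) ∨
    ((search N U E μ).1 = 2 ∧
      Barrier U E (fr U (fn μ)) (search N U E μ).2.1 (search N U E μ).2.2) := by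
  obtain ⟨h1, h2⟩ := search_forest hU hE hμ
  unfold search
  cases e : ((forest U E μ).1.product (forest U E μ).1).find? _ with
  | none =>
    refine Or.inr (Or.inr ⟨rfl, h1.nodupS, h1.nodupT, h1.subS, h1.subT, h1.disj, h1.card, ?_⟩)
    intro t ht v hv hE'
    obtain ⟨p, hp, rfl⟩ := List.mem_map.1 ht
    refine (h2 p hp v hv hE').imp (fun h => ?_) id
    obtain ⟨q, hq, rfl⟩ := List.mem_map.1 h
    have := List.find?_eq_none.1 e (p, q) (List.pair_mem_product.2 ⟨hp, hq⟩)
    by_contra hc
    exact this (by simpa using ⟨fun e' => hc (by simpa using e'.symm), by simpa using hE'⟩)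
  | some q =>
    have h3 := List.find?_some e
    obtain ⟨hp, hq⟩ := List.pair_mem_product.1 (List.mem_of_find?_eq_some e)
    simp only [Bool.and_eq_true, bne_iff_ne, List.contains_eq_mem, decide_eq_true_eq] at h3
    exact (search_join hU hN hE hμ h1.subT h1.subS h1.disj (h1.alt _ hp) (h1.alt _ hq) h3.1 h3.2).imp
      id Or.inl

end Crest.Agent.Lib.Matching
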