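import Crest.Agent.Lib.Matching.Blk
import Crest.Agent.Lib.Matching.Search

/-! Tight pairs, weak duality, and the position of fresh blossoms in a barrier. -/

set_option autoImplicit false

namespace Crest.Agent.Lib.Matching

variable {g : List (List ℕ)} {y : List ℤ} {Ω Λ : List Entry}

theorem mem_tight {u v : ℕ} :
    (u, v) ∈ tight g y Ω ↔ u < 2 * g.length ∧ v < 2 * g.length ∧ slack g y Ω u v = 0 := by
  simp [tight, and_assoc]

theorem cnt_symm (Ω : List Entry) (u v : ℕ) : cnt Ω u v = cnt Ω v u := by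
  unfold cnt; simp only [Bool.and_comm]

theorem om_symm (hg : Symm g) (u v : ℕ) : om g u v = om g v u := by
  unfold om
  by_cases h : u < g.length ∧ v < g.length
  · rw [if_pos h, if_pos h.symm, hg u h.1 v h.2]
  · rw [if_neg h, if_neg (fun e => h e.symm)]

theorem slack_symm (hg : Symm g) (u v : ℕ) : slack g y Ω u v = slack g y Ω v u := by
  unfold slack; rw [cnt_symm, om_symm hg]; ring

theorem tight_symE (hg : Symm g) : SymE (2 * g.length) (tight g y Ω) := by
  intro u v h
  obtain ⟨h1, h2, h3⟩ := mem_tight.1 h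
  exact ⟨mem_tight.2 ⟨h2, h1, by rwa [slack_symm hg]⟩, h1⟩

lemma duality_hist_suffix {N f : ℕ} {τ : List (ℕ × ℕ)} {C : Entry} {l₂ : List Entry}
    (l₁ : List Entry) (h : Hist N τ Ω f (l₁ ++ C :: l₂)) :
    ∃ m, VM N τ (C :: l₂ ++ Ω) m ∧ fr (List.range N) m = f ∧ ∃ x ∈ C.1, m x = x := by
  induction l₁ with
  | nil => exact h.1
  | cons a l ih => exact ih h.2

/-- no inner block of a barrier is a freshly shrunk blossom -/
theorem barrier_avoids {N f : ℕ} {τ : List (ℕ × ℕ)} {S T : List ℕ} (h : Lam N τ (Λ ++ Ω))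
    (hH : Hist N τ Ω f Λ) (hB : Barrier (nodes N (Λ ++ Ω)) (edges N τ (Λ ++ Ω)) f S T) :
    ∀ c ∈ S, ∀ e ∈ Λ, c ∉ e.1 := by
  by_contra H
  push Not at H
  obtain ⟨l₁, C, l₂, rfl, ⟨c, hc, hcC⟩, hl₁⟩ : ∃ l₁ C l₂, Λ = l₁ ++ C :: l₂ ∧ (∃ c ∈ S, c ∈ C.1) ∧
      ∀ s ∈ S, ∀ e ∈ l₁, s ∉ e.1 := by
    obtain ⟨c, hc, e, he, hce⟩ := H
    cases h1 : Λ.find? (fun e => S.any (fun s => e.1.contains s)) with
    | none =>
      have := List.find?_eq_none.1 h1 e he
      simp only [List.any_eq_true, not_exists, not_and] at this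
      exact absurd (by simpa using hce) (this c hc)
    | some C =>
      obtain ⟨h2, l₁, l₂, h3, h4⟩ := List.find?_eq_some_iff_append.1 h1
      refine ⟨l₁, C, l₂, h3, by simpa using h2, fun s hs e' he' hse => ?_⟩
      have := h4 e' he'
      simp only [Bool.not_eq_true', List.any_eq_false] at this
      exact this s hs (by simpa using hse)
  obtain ⟨m, hm, hf, x, hx, hmx⟩ := duality_hist_suffix l₁ hH
  set Γ := l₁ ++ C :: l₂ ++ Ω with hΓ
  have hinv : ∀ v, v < N → m v < N ∧ m (m v) = v ∧ (m v ≠ v → (v, m v) ∈ τ) := fun v hv => by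
    simpa using hm.1 v (by simpa using hv)
  have hblk : ∀ s ∈ S, blk Γ s = blk (C :: l₂ ++ Ω) s := by
    intro s hs
    unfold blk
    rw [hΓ, List.append_assoc, top_append_of_not_mem (hl₁ s hs)]
  have hfull : ∀ s, ∃ e, s ∈ S → e ∈ blk Γ s ∧ ∀ v ∈ blk Γ s, (m v = v ∨ m v ∉ blk Γ s) ↔ v = e := by
    intro s
    by_cases hs : s ∈ S
    · obtain ⟨e, he⟩ := hm.full_blk s
      exact ⟨e, fun _ => by rwa [hblk s hs]⟩
    · exact ⟨0, fun e => absurd e hs⟩
  choose ε hε using hfull
  have hexp : ∀ t, ∃ v, t ∈ T → v ∈ blk Γ t ∧ (m v = v ∨ m v ∉ blk Γ t) := by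
    intro t
    by_cases ht : t ∈ T
    · have h1 := (mem_nodes.1 (hB.subT ht)).1
      obtain ⟨v, hv⟩ := exists_exposed (blk_nodup h h1) (crit_top h h1).odd (m := m)
        fun v hv => (hinv v (blk_lt h h1 hv)).2.1
      exact ⟨v, fun _ => hv⟩
    · exact ⟨0, fun e => absurd e ht⟩
  choose ν hν using hexp
  have hcx : ε c = x := by
    have h1 : blk Γ c = C.1 := by
      unfold blk
      rw [hΓ, List.append_assoc, List.cons_append, top_append_cons hcC (hl₁ c hc)]
    exact (((hε c hc).2 x (by rwa [h1])).1 (Or.inl hmx)).symm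
  have hxN : x < N := by
    rw [← hcx]; exact blk_lt h (mem_nodes.1 (hB.subS hc)).1 (hε c hc).1
  set F := (Finset.range N).filter (fun v => m v = v) with hF
  have hFc : F.card = f := by
    rw [← hf, fr, List.countP_eq_length_filter, hF, ← List.toFinset_range,
      ← List.toFinset_card_of_nodup (List.nodup_range.filter _), List.toFinset_filter]
    simp
  have hle : T.toFinset.card ≤ (F ∪ (S.toFinset.erase c).image ε).card := by
    refine Finset.card_le_card_of_injOn (fun t => m (ν t)) (fun t ht => ?_) fun t ht t' ht' e => ?_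
    · have ht := List.mem_toFinset.1 ht
      obtain ⟨a1, a2⟩ := mem_nodes.1 (hB.subT ht)
      obtain ⟨a3, a4⟩ := hν t ht
      obtain ⟨a5, a6, a7⟩ := hinv _ (blk_lt h a1 a3)
      simp only [Finset.coe_union, Set.mem_union, Finset.mem_coe]
      by_cases e : m (ν t) = ν t
      · left
        exact Finset.mem_filter.2 ⟨Finset.mem_range.2 a5, by rw [a6, e]⟩
      · have b1 : m (ν t) ∉ blk Γ t := a4.resolve_left e
        have b2 : rep Γ (ν t) = t := ((rep_eq_iff h.2).2 a3).trans a2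
        have b3 : t ≠ rep Γ (m (ν t)) := fun e' => b1 ((rep_eq_iff h.2).1 (e'.symm.trans a2.symm))
        have b4 := (hB.nbr t ht _ (rep_mem_nodes h a5) (mem_edges.2 ⟨hB.subT ht,
          rep_mem_nodes h a5, b3, _, _, a7 e, b2, rfl⟩)).resolve_left b3.symm
        have b5 : m (ν t) = ε (rep Γ (m (ν t))) := by
          refine ((hε _ b4).2 _ (by rw [blk_rep h.2]; exact mem_blk _ _)).1 (Or.inr fun e' => b3 ?_)
          rw [a6] at e'
          exact b2.symm.trans (((rep_eq_iff h.2).2 e').trans (rep_rep h.2 _))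
        by_cases b6 : rep Γ (m (ν t)) = c
        · left
          rw [b5, b6, hcx]
          exact Finset.mem_filter.2 ⟨Finset.mem_range.2 hxN, hmx⟩
        · right
          exact Finset.mem_image.2 ⟨_, Finset.mem_erase.2 ⟨b6, List.mem_toFinset.2 b4⟩, b5.symm⟩
    · have ht := List.mem_toFinset.1 ht
      have ht' := List.mem_toFinset.1 ht'
      obtain ⟨a1, a2⟩ := mem_nodes.1 (hB.subT ht)
      obtain ⟨a1', a2'⟩ := mem_nodes.1 (hB.subT ht')
      have a3 := (hinv _ (blk_lt h a1 (hν t ht).1)).2.1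
      have a3' := (hinv _ (blk_lt h a1' (hν t' ht').1)).2.1
      have e' : m (ν t) = m (ν t') := e
      have e'' : ν t = ν t' := by rw [← a3, e', a3']
      rw [← a2, ← a2', ← (rep_eq_iff h.2).2 (hν t ht).1, ← (rep_eq_iff h.2).2 (hν t' ht').1, e'']
  have h1 := Finset.card_union_le F ((S.toFinset.erase c).image ε)
  have h2 := Finset.card_image_le (s := S.toFinset.erase c) (f := ε)
  have h3 := Finset.card_erase_of_mem (List.mem_toFinset.2 hc)
  have h4 := List.toFinset_card_of_nodup hB.nodupS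
  have h5 := List.toFinset_card_of_nodup hB.nodupT
  have h6 := hB.card
  have h7 := List.length_pos_of_mem hc
  omega

lemma duality_sum_cnt (N : ℕ) (m : ℕ → ℕ) (Ω : List Entry) :
    ∑ v ∈ Finset.range N, (cnt Ω v (m v) : ℤ) =
      (Ω.map (fun e => (((Finset.range N).filter (fun v => v ∈ e.1 ∧ m v ∈ e.1)).card : ℤ))).sum := by
  induction Ω with
  | nil => simp [cnt]
  | cons e Ω ih =>
    rw [List.map_cons, List.sum_cons, ← ih, Finset.card_filter]
    push_cast
    rw [← Finset.sum_add_distrib]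
    refine Finset.sum_congr rfl fun v _ => ?_
    unfold cnt
    rw [List.countP_cons]
    by_cases h : v ∈ e.1 ∧ m v ∈ e.1
    · simp [h, add_comm]
    · rw [if_neg h, if_neg (by simpa using h)]; simp

lemma duality_sum (g : List (List ℕ)) (y : List ℤ) (Ω : List Entry) {m : ℕ → ℕ}
    (hm : IsInv (2 * g.length) m) :
    2 * ∑ v ∈ Finset.range (2 * g.length), (om g v (m v) : ℤ) +
        ∑ v ∈ Finset.range (2 * g.length), slack g y Ω v (m v) =
      2 * ∑ v ∈ Finset.range (2 * g.length), y.getD v 0 +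
        2 * ∑ v ∈ Finset.range (2 * g.length), (cnt Ω v (m v) : ℤ) := by
  have h1 : ∑ v ∈ Finset.range (2 * g.length), y.getD (m v) 0 =
      ∑ v ∈ Finset.range (2 * g.length), y.getD v 0 :=
    Finset.sum_nbij' m m (fun v hv => Finset.mem_range.2 (hm v (Finset.mem_range.1 hv)).1)
      (fun v hv => Finset.mem_range.2 (hm v (Finset.mem_range.1 hv)).1)
      (fun v hv => (hm v (Finset.mem_range.1 hv)).2) (fun v hv => (hm v (Finset.mem_range.1 hv)).2)
      (fun _ _ => rfl)
  unfold slack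
  rw [Finset.sum_sub_distrib, Finset.sum_add_distrib, Finset.sum_add_distrib, h1,
    ← Finset.mul_sum, ← Finset.mul_sum]
  ring

lemma duality_card_le {N : ℕ} {τ : List (ℕ × ℕ)} {e : Entry} (he : Crit N τ e) {m : ℕ → ℕ}
    (hm : IsInv N m) (hm' : ∀ v < N, m v ≠ v) :
    (((Finset.range N).filter (fun v => v ∈ e.1 ∧ m v ∈ e.1)).card : ℤ) ≤ (e.1.length : ℤ) - 1 := by
  obtain ⟨x, h1, h2⟩ := exists_exposed he.1 he.odd (m := m) fun v hv => (hm v (he.2.2.1 v hv)).2
  have h3 := h2.resolve_left (hm' x (he.2.2.1 x h1))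
  have h4 : (Finset.range N).filter (fun v => v ∈ e.1 ∧ m v ∈ e.1) ⊆ e.1.toFinset.erase x := by
    intro v hv
    obtain ⟨-, a1, a2⟩ := Finset.mem_filter.1 hv
    exact Finset.mem_erase.2 ⟨fun e' => h3 (e' ▸ a2), List.mem_toFinset.2 a1⟩
  have h5 := Finset.card_le_card h4
  rw [Finset.card_erase_of_mem (List.mem_toFinset.2 h1), List.toFinset_card_of_nodup he.1] at h5
  have := List.length_pos_of_mem h1
  omega

lemma duality_card_eq {N : ℕ} {τ : List (ℕ × ℕ)} {e : Entry} (he : Crit N τ e) {m : ℕ → ℕ}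
    (hf : Full m e.1) (hm' : ∀ v < N, m v ≠ v) :
    (((Finset.range N).filter (fun v => v ∈ e.1 ∧ m v ∈ e.1)).card : ℤ) = (e.1.length : ℤ) - 1 := by
  obtain ⟨x, h1, h2⟩ := hf
  have h4 : (Finset.range N).filter (fun v => v ∈ e.1 ∧ m v ∈ e.1) = e.1.toFinset.erase x := by
    ext v
    simp only [Finset.mem_filter, Finset.mem_range, Finset.mem_erase, List.mem_toFinset]
    constructor
    · rintro ⟨a0, a1, a2⟩
      refine ⟨fun e' => ?_, a1⟩
      have := (h2 v a1).2 e'
      have := hm' v a0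
      tauto
    · rintro ⟨a1, a2⟩
      have := h2 v a2
      exact ⟨he.2.2.1 v a2, a2, by tauto⟩
  rw [h4, Finset.card_erase_of_mem (List.mem_toFinset.2 h1), List.toFinset_card_of_nodup he.1]
  have := List.length_pos_of_mem h1
  omega

/-- weak duality -/
theorem weak_duality {τ : List (ℕ × ℕ)} (hF : Feas g y Ω) (h : Lam (2 * g.length) τ Ω) {m : ℕ → ℕ}
    (hm : IsInv (2 * g.length) m) (hm' : ∀ v < 2 * g.length, m v ≠ v) :
    ∑ v ∈ Finset.range (2 * g.length), (om g v (m v) : ℤ) ≤ obj (2 * g.length) y Ω := by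
  have h1 := duality_sum g y Ω hm
  have h2 : 0 ≤ ∑ v ∈ Finset.range (2 * g.length), slack g y Ω v (m v) :=
    Finset.sum_nonneg fun v hv => hF v (m v) (Finset.mem_range.1 hv)
      (hm v (Finset.mem_range.1 hv)).1 (hm' v (Finset.mem_range.1 hv)).symm
  have h3 := List.sum_le_sum (l := Ω) fun e he => duality_card_le (h.1 e he) hm hm'
  rw [duality_sum_cnt] at h1
  unfold obj
  omega

/-- complementary slackness -/
theorem strong_duality (h : Lam (2 * g.length) (tight g y Ω) Ω) {m : ℕ → ℕ}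
    (hm : VM (2 * g.length) (tight g y Ω) Ω m) (hm' : ∀ v < 2 * g.length, m v ≠ v) :
    ∑ v ∈ Finset.range (2 * g.length), (om g v (m v) : ℤ) = obj (2 * g.length) y Ω := by
  have hinv : ∀ v, v < 2 * g.length →
      m v < 2 * g.length ∧ m (m v) = v ∧ (m v ≠ v → (v, m v) ∈ tight g y Ω) := fun v hv => by
    simpa using hm.1 v (by simpa using hv)
  have h1 := duality_sum g y Ω (m := m) fun v hv => ⟨(hinv v hv).1, (hinv v hv).2.1⟩
  have h2 : ∑ v ∈ Finset.range (2 * g.length), slack g y Ω v (m v) = 0 :=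
    Finset.sum_eq_zero fun v hv => (mem_tight.1 ((hinv v (Finset.mem_range.1 hv)).2.2
      (hm' v (Finset.mem_range.1 hv)))).2.2
  rw [duality_sum_cnt, List.map_congr_left fun e he =>
    duality_card_eq (h.1 e he) (hm.2 e he) hm'] at h1
  unfold obj
  omega

end Crest.Agent.Lib.Matching
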