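import Crest.Agent.Lib.Matching.Blk
import Crest.Agent.Lib.Matching.Search

/-! Passing between matchings of blocks and matchings of vertices; shrinking a blossom. -/

set_option autoImplicit false

namespace Crest.Agent.Lib.Matching

variable {N : ℕ} {τ : List (ℕ × ℕ)} {Γ : List Entry}

theorem lift_id (τ : List (ℕ × ℕ)) (Γ : List Entry) (x : ℕ) :
    lift [] Γ (fun c => c) x = lift τ Γ (fun c => c) x := by
  funext v; simp [lift, ex]

theorem lift_fr_card {U : List ℕ} (hU : U.Nodup) (μ : ℕ → ℕ) :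
    fr U μ = (U.toFinset.filter fun v => μ v = v).card := by
  unfold fr
  rw [List.countP_eq_length_filter, ← List.toFinset_card_of_nodup (hU.filter _)]
  congr 1
  ext v
  simp

theorem lift_full_congr {f g : ℕ → ℕ} {B : List ℕ} (h : ∀ v ∈ B, f v = g v) (hg : Full g B) :
    Full f B := by
  obtain ⟨e, he, h2⟩ := hg
  exact ⟨e, he, fun v hv => by rw [h v hv]; exact h2 v hv⟩

theorem lift_ed {c d : ℕ} (h : (c, d) ∈ edges N τ Γ) :
    ∃ u v, ed τ Γ c d = some (u, v) ∧ (u, v) ∈ τ ∧ rep Γ u = c ∧ rep Γ v = d := by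
  obtain ⟨-, -, -, u, v, h1, h2, h3⟩ := mem_edges.1 h
  cases he : ed τ Γ c d with
  | none =>
    have := List.find?_eq_none.1 he (u, v) h1
    simp [h2, h3] at this
  | some q =>
    have h4 := List.find?_some he
    have h5 := List.mem_of_find?_eq_some he
    simp only [Bool.and_eq_true, beq_iff_eq] at h4
    exact ⟨q.1, q.2, rfl, h5, h4.1, h4.2⟩

theorem lift_ex_pair (hτ : SymE N τ) {μ : ℕ → ℕ} (hμ : Mt (nodes N Γ) (edges N τ Γ) μ) (x : ℕ)
    {c : ℕ} (hc : c ∈ nodes N Γ) (hne : μ c ≠ c) :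
    (ex τ Γ μ x c, ex τ Γ μ x (μ c)) ∈ τ ∧ rep Γ (ex τ Γ μ x c) = c := by
  obtain ⟨h1, h2, h3⟩ := hμ c hc
  have h4 := h3 hne
  rcases lt_or_gt_of_ne hne with hlt | hlt
  · obtain ⟨u, v, e1, e2, e3, e4⟩ := lift_ed (edges_symm hτ _ _ h4)
    have a1 : ex τ Γ μ x c = v := by
      unfold ex; rw [if_neg hne, if_neg (by omega), e1]; rfl
    have a2 : ex τ Γ μ x (μ c) = u := by
      unfold ex; rw [h2, if_neg hne.symm, if_pos hlt, e1]; rfl
    rw [a1, a2]
    exact ⟨(hτ _ _ e2).1, e4⟩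
  · obtain ⟨u, v, e1, e2, e3, e4⟩ := lift_ed h4
    have a1 : ex τ Γ μ x c = u := by
      unfold ex; rw [if_neg hne, if_pos hlt, e1]; rfl
    have a2 : ex τ Γ μ x (μ c) = v := by
      unfold ex; rw [h2, if_neg hne.symm, if_neg (by omega), e1]; rfl
    rw [a1, a2]
    exact ⟨e2, e3⟩

theorem lift_ex_rep (hτ : SymE N τ) {μ : ℕ → ℕ} (hμ : Mt (nodes N Γ) (edges N τ Γ) μ) (x : ℕ)
    {c : ℕ} (hc : c ∈ nodes N Γ) : rep Γ (ex τ Γ μ x c) = c := by
  by_cases hne : μ c = c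
  · unfold ex
    rw [if_pos hne]
    split_ifs with h1
    · exact h1
    · exact (mem_nodes.1 hc).2
  · exact (lift_ex_pair hτ hμ x hc hne).2

theorem lift_ex_mem (h : Lam N τ Γ) (hτ : SymE N τ) {μ : ℕ → ℕ}
    (hμ : Mt (nodes N Γ) (edges N τ Γ) μ) (x : ℕ) {v : ℕ} (hv : v < N) :
    ex τ Γ μ x (rep Γ v) ∈ blk Γ v :=
  (rep_eq_iff h.2).1 (lift_ex_rep hτ hμ x (rep_mem_nodes h hv))

theorem lift_ex_lt (h : Lam N τ Γ) (hτ : SymE N τ) {μ : ℕ → ℕ}
    (hμ : Mt (nodes N Γ) (edges N τ Γ) μ) (x : ℕ) {c : ℕ} (hc : c ∈ nodes N Γ) :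
    ex τ Γ μ x c < N := by
  have h1 := mem_nodes.1 hc
  have := lift_ex_mem h hτ hμ x h1.1
  rw [h1.2] at this
  exact blk_lt h h1.1 this

/-- the basic properties of `lift` at one vertex -/
theorem lift_spec (h : Lam N τ Γ) (hτ : SymE N τ) {μ : ℕ → ℕ}
    (hμ : Mt (nodes N Γ) (edges N τ Γ) μ) (x : ℕ) {v : ℕ} (hv : v < N) :
    lift τ Γ μ x v < N ∧ lift τ Γ μ x (lift τ Γ μ x v) = v ∧
      (lift τ Γ μ x v ≠ v → (v, lift τ Γ μ x v) ∈ τ) ∧
      (lift τ Γ μ x v = v ↔ v = ex τ Γ μ x (rep Γ v) ∧ μ (rep Γ v) = rep Γ v) ∧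
      (v ≠ ex τ Γ μ x (rep Γ v) → rep Γ (lift τ Γ μ x v) = rep Γ v) ∧
      (v = ex τ Γ μ x (rep Γ v) → rep Γ (lift τ Γ μ x v) = μ (rep Γ v)) := by
  have hc := rep_mem_nodes h hv
  by_cases h1 : v = ex τ Γ μ x (rep Γ v)
  · by_cases h2 : μ (rep Γ v) = rep Γ v
    · have e : lift τ Γ μ x v = v := by unfold lift; rw [if_pos h1, if_pos h2]
      rw [e, e]
      exact ⟨hv, rfl, fun h => absurd rfl h, ⟨fun _ => ⟨h1, h2⟩, fun _ => rfl⟩, fun _ => rfl,
        fun _ => h2.symm⟩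
    · have e : lift τ Γ μ x v = ex τ Γ μ x (μ (rep Γ v)) := by
        unfold lift; rw [if_pos h1, if_neg h2]
      obtain ⟨m1, m2, -⟩ := hμ _ hc
      have r := lift_ex_rep hτ hμ x m1
      have e2 : lift τ Γ μ x (ex τ Γ μ x (μ (rep Γ v))) = v := by
        unfold lift
        rw [r, if_pos rfl, m2, if_neg (Ne.symm h2)]
        exact h1.symm
      rw [e]
      refine ⟨lift_ex_lt h hτ hμ x m1, e2, fun _ => ?_, ⟨fun h3 => ?_, fun h3 => absurd h3.2 h2⟩,
        fun h3 => absurd h1 h3, fun _ => r⟩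
      · have := (lift_ex_pair hτ hμ x hc h2).1
        rwa [← h1] at this
      · rw [h3] at r
        exact absurd r.symm h2
  · have e : lift τ Γ μ x v = tbl Γ (ex τ Γ μ x (rep Γ v)) v := by unfold lift; rw [if_neg h1]
    have hx := lift_ex_mem h hτ hμ x hv
    have hn := tbl_near h hv hx
    obtain ⟨n1, n2, n3⟩ := hn.1 v (mem_blk Γ v)
    have r : rep Γ (tbl Γ (ex τ Γ μ x (rep Γ v)) v) = rep Γ v := (rep_eq_iff h.2).2 n1
    have hne : tbl Γ (ex τ Γ μ x (rep Γ v)) v ≠ ex τ Γ μ x (rep Γ v) := by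
      intro h3
      rw [h3, (hn.2 _ hx).2 rfl] at n2
      exact h1 n2.symm
    have e2 : lift τ Γ μ x (tbl Γ (ex τ Γ μ x (rep Γ v)) v) = v := by
      unfold lift
      rw [r, if_neg hne, n2]
    rw [e]
    exact ⟨blk_lt h hv n1, e2, n3, ⟨fun h3 => absurd ((hn.2 v (mem_blk Γ v)).1 h3) h1,
      fun h3 => absurd h3.1 h1⟩, fun _ => r, fun h3 => absurd h3 h1⟩

theorem lift_vm (h : Lam N τ Γ) (hτ : SymE N τ) {μ : ℕ → ℕ}
    (hμ : Mt (nodes N Γ) (edges N τ Γ) μ) (x : ℕ) :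
    VM N τ Γ (lift τ Γ μ x) ∧ fr (List.range N) (lift τ Γ μ x) = fr (nodes N Γ) μ := by
  refine ⟨⟨fun v hv => ?_, fun e he => ?_⟩, ?_⟩
  · obtain ⟨a1, a2, a3, -⟩ := lift_spec h hτ hμ x (List.mem_range.1 hv)
    exact ⟨List.mem_range.2 a1, a2, a3⟩
  · obtain ⟨-, c2, c3, -⟩ := h.1 e he
    obtain ⟨u, hu⟩ := List.exists_mem_of_ne_nil _ c2
    have hx := lift_ex_mem h hτ hμ x (c3 u hu)
    rcases top_nest h u he with h1 | ⟨h1, h2⟩
    · exact absurd hu (h1 (mem_blk Γ u))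
    obtain ⟨z, hz, h3⟩ := h2 _ hx
    refine ⟨z, hz, fun v hv => ?_⟩
    rw [← h3 v hv]
    have r : rep Γ v = rep Γ u := (rep_eq_iff h.2).2 (h1 hv)
    by_cases h4 : v = ex τ Γ μ x (rep Γ v)
    · obtain ⟨-, -, -, a4, -, a6⟩ := lift_spec h hτ hμ x (c3 v hv)
      have b1 : tbl Γ (ex τ Γ μ x (rep Γ u)) v = v := by
        rw [← r, ← h4]
        exact ((tbl_near h (c3 v hv) (mem_blk Γ v)).2 v (mem_blk Γ v)).2 rfl
      refine ⟨fun _ => Or.inl b1, fun _ => ?_⟩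
      by_cases h5 : μ (rep Γ v) = rep Γ v
      · exact Or.inl (a4.2 ⟨h4, h5⟩)
      · refine Or.inr fun h6 => h5 ?_
        rw [← a6 h4, r]
        exact (rep_eq_iff h.2).2 (h1 h6)
    · have e1 : lift τ Γ μ x v = tbl Γ (ex τ Γ μ x (rep Γ u)) v := by
        unfold lift; rw [if_neg h4, r]
      rw [e1]
  · rw [lift_fr_card List.nodup_range, lift_fr_card (nodes_nodup N Γ)]
    refine Finset.card_bij (fun v _ => rep Γ v) (fun v hv => ?_) (fun v hv v' hv' e => ?_)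
      fun c hc => ?_
    · simp only [Finset.mem_filter, List.mem_toFinset, List.mem_range] at hv ⊢
      exact ⟨rep_mem_nodes h hv.1, ((lift_spec h hτ hμ x hv.1).2.2.2.1.1 hv.2).2⟩
    · simp only [Finset.mem_filter, List.mem_toFinset, List.mem_range] at hv hv' e
      rw [((lift_spec h hτ hμ x hv.1).2.2.2.1.1 hv.2).1, e,
        ← ((lift_spec h hτ hμ x hv'.1).2.2.2.1.1 hv'.2).1]
    · simp only [Finset.mem_filter, List.mem_toFinset, List.mem_range] at hc ⊢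
      have r := lift_ex_rep hτ hμ x hc.1
      have l := lift_ex_lt h hτ hμ x hc.1
      exact ⟨ex τ Γ μ x c, ⟨l, (lift_spec h hτ hμ x l).2.2.2.1.2 ⟨by rw [r], by rw [r, hc.2]⟩⟩, r⟩

/-- the vertex of the block `c` that is not matched inside the block -/
def liftPz (Γ : List Entry) (m : ℕ → ℕ) (c : ℕ) : ℕ :=
  ((blk Γ c).find? (fun v => m v == v || !(blk Γ c).contains (m v))).getD c

theorem lift_pz {m : ℕ → ℕ} (hm : VM N τ Γ m) (c : ℕ) :
    liftPz Γ m c ∈ blk Γ c ∧ ∀ v ∈ blk Γ c, (m v = v ∨ m v ∉ blk Γ c) ↔ v = liftPz Γ m c := by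
  obtain ⟨z, hz, h1⟩ := hm.full_blk c
  have : liftPz Γ m c = z := by
    unfold liftPz
    cases he : (blk Γ c).find? (fun v => m v == v || !(blk Γ c).contains (m v)) with
    | none =>
      have := List.find?_eq_none.1 he z hz
      have h2 := (h1 z hz).2 rfl
      simp only [Bool.or_eq_true, beq_iff_eq, Bool.not_eq_true', List.contains_eq_mem,
        decide_eq_false_iff_not] at this
      exact absurd h2 this
    | some q =>
      have h4 := List.find?_some he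
      have h5 := List.mem_of_find?_eq_some he
      simp only [Bool.or_eq_true, beq_iff_eq, Bool.not_eq_true', List.contains_eq_mem,
        decide_eq_false_iff_not] at h4
      exact (h1 q h5).1 h4
  rw [this]
  exact ⟨hz, h1⟩

theorem proj_mt (h : Lam N τ Γ) (hτ : SymE N τ) {m : ℕ → ℕ} (hm : VM N τ Γ m) :
    Mt (nodes N Γ) (edges N τ Γ) (proj Γ m) ∧ fr (nodes N Γ) (proj Γ m) = fr (List.range N) m := by
  have hp : ∀ c, proj Γ m c = rep Γ (m (liftPz Γ m c)) := fun _ => rfl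
  have hfix : ∀ c ∈ nodes N Γ, proj Γ m c = c ↔ m (liftPz Γ m c) = liftPz Γ m c := by
    intro c hc
    obtain ⟨c1, c2⟩ := mem_nodes.1 hc
    obtain ⟨z1, z2⟩ := lift_pz hm c
    rw [hp]
    constructor
    · intro h1
      rcases (z2 _ z1).2 rfl with h2 | h2
      · exact h2
      · exact absurd ((rep_eq_iff h.2).1 (h1.trans c2.symm)) h2
    · intro h1
      rw [h1, (rep_eq_iff h.2).2 z1, c2]
  refine ⟨fun c hc => ?_, ?_⟩
  · obtain ⟨c1, c2⟩ := mem_nodes.1 hc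
    obtain ⟨z1, z2⟩ := lift_pz hm c
    have zl := blk_lt h c1 z1
    obtain ⟨m1, m2, m3⟩ := hm.1 _ (List.mem_range.2 zl)
    have hd : proj Γ m c ∈ nodes N Γ := rep_mem_nodes h (List.mem_range.1 m1)
    have rz : rep Γ (liftPz Γ m c) = c := ((rep_eq_iff h.2).2 z1).trans c2
    by_cases h1 : proj Γ m c = c
    · exact ⟨hd, by rw [h1, h1], fun h2 => absurd h1 h2⟩
    have h2 : m (liftPz Γ m c) ≠ liftPz Γ m c := fun h3 => h1 ((hfix c hc).2 h3)
    refine ⟨hd, ?_, fun _ => mem_edges.2 ⟨hc, hd, Ne.symm h1, _, _, m3 h2, rz, rfl⟩⟩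
    have h3 : m (liftPz Γ m c) ∈ blk Γ (proj Γ m c) := by
      rw [hp, blk_rep h.2]; exact mem_blk _ _
    have h4 : m (liftPz Γ m c) = liftPz Γ m (proj Γ m c) := by
      refine ((lift_pz hm _).2 _ h3).1 (Or.inr fun h5 => h1 ?_)
      rw [m2] at h5
      have := (rep_eq_iff h.2).2 h5
      rw [rz, (mem_nodes.1 hd).2] at this
      exact this.symm
    rw [hp (proj Γ m c), ← h4, m2, rz]
  · have _ := hτ
    symm
    rw [lift_fr_card List.nodup_range, lift_fr_card (nodes_nodup N Γ)]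
    have hv : ∀ v, m v = v → v = liftPz Γ m (rep Γ v) := fun v h1 =>
      ((lift_pz hm _).2 v (by rw [blk_rep h.2]; exact mem_blk _ _)).1 (Or.inl h1)
    refine Finset.card_bij (fun v _ => rep Γ v) (fun v h1 => ?_) (fun v h1 v' h2 e => ?_)
      fun c hc => ?_
    · simp only [Finset.mem_filter, List.mem_toFinset, List.mem_range] at h1 ⊢
      refine ⟨rep_mem_nodes h h1.1, (hfix _ (rep_mem_nodes h h1.1)).2 ?_⟩
      rw [← hv v h1.2, h1.2]
    · simp only [Finset.mem_filter, List.mem_toFinset, List.mem_range] at h1 h2 e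
      rw [hv v h1.2, e, ← hv v' h2.2]
    · simp only [Finset.mem_filter, List.mem_toFinset, List.mem_range] at hc ⊢
      obtain ⟨c1, c2⟩ := mem_nodes.1 hc.1
      have z1 := (lift_pz hm c).1
      exact ⟨liftPz Γ m c, ⟨blk_lt h c1 z1, (hfix c hc.1).1 hc.2⟩,
        ((rep_eq_iff h.2).2 z1).trans c2⟩

theorem lift_mem_merge {b : List ℕ} {v : ℕ} : v ∈ (merge N τ Γ b).1 ↔ v < N ∧ rep Γ v ∈ b := by
  simp [merge]

theorem lift_row_merge {b : List ℕ} {x : ℕ} (hx : x < N) :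
    row (merge N τ Γ b) x = fn (tab N (lift τ Γ (cyct b (rep Γ x)) x)) := by
  simp [row, merge, List.getD_eq_getElem?_getD, hx]

theorem lift_closed (h : Lam N τ Γ) (hτ : SymE N τ) {b : List ℕ} {μ : ℕ → ℕ}
    (hμ : Mt (nodes N Γ) (edges N τ Γ) μ) (hcl : ∀ v ∈ b, μ v ∈ b) (x : ℕ) {v : ℕ}
    (hv : v ∈ (merge N τ Γ b).1) : lift τ Γ μ x v ∈ (merge N τ Γ b).1 := by
  obtain ⟨v1, v2⟩ := lift_mem_merge.1 hv
  obtain ⟨a1, -, -, -, a5, a6⟩ := lift_spec h hτ hμ x v1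
  refine lift_mem_merge.2 ⟨a1, ?_⟩
  by_cases h1 : v = ex τ Γ μ x (rep Γ v)
  · rw [a6 h1]; exact hcl _ v2
  · rw [a5 h1]; exact v2

theorem lift_cyc_mt {U : List ℕ} {E : List (ℕ × ℕ)} {b : List ℕ} (hb : Cyc U E b) {c : ℕ}
    (hc : c ∈ b) : Mt U E (cyct b c) := by
  intro v hv
  by_cases h1 : v ∈ b
  · obtain ⟨a1, a2, a3⟩ := (hb.near c hc).1 v h1
    exact ⟨hb.sub a1, a2, a3⟩
  · rw [hb.out c v h1, hb.out c v h1]
    exact ⟨hv, rfl, fun h => absurd rfl h⟩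

theorem merge_lam (h : Lam N τ Γ) (hτ : SymE N τ) {b : List ℕ}
    (hb : Cyc (nodes N Γ) (edges N τ Γ) b) :
    Lam N τ (merge N τ Γ b :: Γ) ∧
      (nodes N (merge N τ Γ b :: Γ)).length < (nodes N Γ).length := by
  have hrow : ∀ x ∈ (merge N τ Γ b).1, ∀ v < N,
      row (merge N τ Γ b) x v = lift τ Γ (cyct b (rep Γ x)) x v := by
    intro x hx v hv
    obtain ⟨x1, x2⟩ := lift_mem_merge.1 hx
    rw [lift_row_merge x1]
    exact fn_tab hv (lift_spec h hτ (lift_cyc_mt hb x2) x hv).1.le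
  have hbm : ∀ c ∈ b, c ∈ (merge N τ Γ b).1 := fun c hc => by
    obtain ⟨c1, c2⟩ := mem_nodes.1 (hb.sub hc)
    exact lift_mem_merge.2 ⟨c1, by rwa [c2]⟩
  refine ⟨⟨?_, List.pairwise_cons.2 ⟨fun e he => ?_, h.2⟩⟩, ?_⟩
  · intro e he
    rcases List.mem_cons.1 he with rfl | he
    swap
    · exact h.1 e he
    refine ⟨List.nodup_range.filter _, ?_, fun v hv => (lift_mem_merge.1 hv).1, fun x hx => ?_⟩
    · have : b ≠ [] := by
        intro h0
        have := hb.three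
        simp [h0] at this
      obtain ⟨c, hc⟩ := List.exists_mem_of_ne_nil _ this
      exact List.ne_nil_of_mem (hbm c hc)
    obtain ⟨x1, x2⟩ := lift_mem_merge.1 hx
    have hμ := lift_cyc_mt hb x2
    have hn := hb.near _ x2
    refine ⟨fun v hv => ?_, fun v hv => ?_⟩
    · obtain ⟨v1, v2⟩ := lift_mem_merge.1 hv
      obtain ⟨a1, a2, a3, -⟩ := lift_spec h hτ hμ x v1
      rw [hrow x hx v v1, hrow x hx _ a1]
      exact ⟨lift_closed h hτ hμ (fun v hv => (hn.1 v hv).1) x hv, a2, a3⟩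
    · obtain ⟨v1, v2⟩ := lift_mem_merge.1 hv
      have hxx : ex τ Γ (cyct b (rep Γ x)) x (rep Γ x) = x := by
        unfold ex
        rw [if_pos ((hn.2 _ x2).2 rfl), if_pos rfl]
      rw [hrow x hx v v1, (lift_spec h hτ hμ x v1).2.2.2.1, hn.2 _ v2]
      constructor
      · rintro ⟨h1, h2⟩
        rw [h1, h2, hxx]
      · rintro rfl
        exact ⟨hxx.symm, rfl⟩
  · by_cases hd : (merge N τ Γ b).1.Disjoint e.1
    · exact Or.inl hd
    right
    obtain ⟨u, u1, u2⟩ : ∃ u, u ∈ (merge N τ Γ b).1 ∧ u ∈ e.1 := by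
      by_contra h0
      exact hd fun u u1 u2 => h0 ⟨u, u1, u2⟩
    have hl := (h.1 e he).2.2.1
    refine ⟨fun v hv => lift_mem_merge.2 ⟨hl v hv, ?_⟩, fun x hx => ?_⟩
    · rw [(rep_eq_iff h.2).2 (sub_blk h.2 he u2 hv)]
      exact (lift_mem_merge.1 u1).2
    · exact lift_full_congr (fun v hv => hrow x hx v (hl v hv))
        ((lift_vm h hτ (lift_cyc_mt hb (lift_mem_merge.1 hx).2) x).1.2 e he)
  · have hsub : (nodes N (merge N τ Γ b :: Γ)).toFinset ⊆
        insert ((merge N τ Γ b).1.headD 0) ((nodes N Γ).toFinset \ b.toFinset) := by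
      intro v hv
      obtain ⟨v1, v2⟩ := mem_nodes.1 (List.mem_toFinset.1 hv)
      by_cases h1 : v ∈ (merge N τ Γ b).1
      · have ht : top (merge N τ Γ b :: Γ) v = merge N τ Γ b :=
          top_append_cons (l₁ := []) h1 (by simp)
        refine Finset.mem_insert.2 (Or.inl ?_)
        unfold rep blk at v2
        rw [ht] at v2
        rw [← v2]
        cases h3 : (merge N τ Γ b).1 with
        | nil => rw [h3] at h1; simp at h1
        | cons a l => rfl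
      · have ht : top (merge N τ Γ b :: Γ) v = top Γ v :=
          top_append_of_not_mem (Λ := [merge N τ Γ b]) (by simpa using h1) Γ
        have v3 : rep Γ v = v := by
          unfold rep blk at v2 ⊢
          rwa [ht] at v2
        refine Finset.mem_insert.2 (Or.inr (Finset.mem_sdiff.2
          ⟨List.mem_toFinset.2 (mem_nodes.2 ⟨v1, v3⟩), fun h2 => h1 (hbm v (List.mem_toFinset.1 h2))⟩))
    have h1 := Finset.card_le_card hsub
    have h2 := Finset.card_insert_le ((merge N τ Γ b).1.headD 0)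
      ((nodes N Γ).toFinset \ b.toFinset)
    have h3 : b.toFinset ⊆ (nodes N Γ).toFinset := fun v hv =>
      List.mem_toFinset.2 (hb.sub (List.mem_toFinset.1 hv))
    have h4 := Finset.card_sdiff_add_card_eq_card h3
    rw [List.toFinset_card_of_nodup (nodes_nodup _ _)] at h1 h4
    rw [List.toFinset_card_of_nodup hb.nodup] at h4
    have := hb.three
    omega

theorem merge_full (h : Lam N τ Γ) (hτ : SymE N τ) {b : List ℕ} (hb : b ⊆ nodes N Γ) {μ : ℕ → ℕ}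
    (hμ : Mt (nodes N Γ) (edges N τ Γ) μ) {L : ℕ} (hL : L ∈ b)
    (hcl : ∀ v ∈ b, μ v ∈ b ∧ (μ v = v ↔ v = L)) (x : ℕ) :
    Full (lift τ Γ μ x) (merge N τ Γ b).1 ∧ ∃ z ∈ (merge N τ Γ b).1, lift τ Γ μ x z = z := by
  have hLn := hb hL
  have r := lift_ex_rep hτ hμ x hLn
  have l := lift_ex_lt h hτ hμ x hLn
  have hz : ex τ Γ μ x L ∈ (merge N τ Γ b).1 := lift_mem_merge.2 ⟨l, by rwa [r]⟩
  have hf : lift τ Γ μ x (ex τ Γ μ x L) = ex τ Γ μ x L :=
    (lift_spec h hτ hμ x l).2.2.2.1.2 ⟨by rw [r], by rw [r]; exact (hcl L hL).2.2 rfl⟩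
  refine ⟨⟨_, hz, fun v hv => ⟨fun h1 => ?_, fun h1 => Or.inl (by rw [h1, hf])⟩⟩, _, hz, hf⟩
  rcases h1 with h1 | h1
  · obtain ⟨v1, v2⟩ := lift_mem_merge.1 hv
    obtain ⟨a1, a2⟩ := (lift_spec h hτ hμ x v1).2.2.2.1.1 h1
    rw [a1, (hcl _ v2).2.1 a2]
  · exact absurd (lift_closed h hτ hμ (fun v hv => (hcl v hv).1) x hv) h1

/-- tabulating does not change the specifications -/
theorem Mt.tab {U : List ℕ} {E : List (ℕ × ℕ)} {μ : ℕ → ℕ} (hμ : Mt U E μ) (hU : ∀ v ∈ U, v < N) :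
    Mt U E (fn (tab N μ)) ∧ fr U (fn (tab N μ)) = fr U μ ∧ ∀ v ∈ U, fn (tab N μ) v = μ v := by
  have e : ∀ v ∈ U, fn (Matching.tab N μ) v = μ v := fun v hv =>
    fn_tab (hU v hv) (hU _ (hμ v hv).1).le
  refine ⟨fun v hv => ?_, ?_, e⟩
  · rw [e v hv, e _ (hμ v hv).1]
    exact hμ v hv
  · exact List.countP_congr fun v hv => by rw [e v hv]

theorem VM.tab (h : Lam N τ Γ) {m : ℕ → ℕ} (hm : VM N τ Γ m) : VM N τ Γ (fn (tab N m)) := by
  obtain ⟨a1, -, a3⟩ := hm.1.tab (N := N) fun v hv => List.mem_range.1 hv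
  exact ⟨a1, fun e he => lift_full_congr
    (fun v hv => a3 v (List.mem_range.2 ((h.1 e he).2.2.1 v hv))) (hm.2 e he)⟩

end Crest.Agent.Lib.Matching
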