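import Crest.Agent.Lib.Matching.Lift
import Crest.Agent.Lib.Matching.Dual

/-! The main loop of the matching algorithm: invariant, termination, optimality. -/

set_option autoImplicit false

namespace Crest.Agent.Lib.Matching

variable {g : List (List ℕ)}

def Done (g : List (List ℕ)) (s : St) : Prop := ∀ v < 2 * g.length, fn s.2.2.2 v ≠ v

def Phi (g : List (List ℕ)) (s : St) : ℤ :=
  obj (2 * g.length) s.1 s.2.1 * ((2 * g.length + 1 : ℕ) : ℤ) ^ 2 +
    (fr (List.range (2 * g.length)) (fn s.2.2.2) * (2 * g.length + 1) +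
      (nodes (2 * g.length) (s.2.2.1 ++ s.2.1)).length : ℕ)

lemma done_iff (s : St) :
    (List.range (2 * g.length)).all (fun v => fn s.2.2.2 v != v) = true ↔ Done g s := by
  simp [Done]

lemma step_done {s : St} (h : Done g s) : step g s = s := by
  unfold step; rw [if_pos ((done_iff s).2 h)]

lemma fr_le (U : List ℕ) (μ : ℕ → ℕ) : fr U μ ≤ U.length := List.countP_le_length

lemma small_lt (N f k : ℕ) (hf : f ≤ N) (hk : k ≤ N) : f * (N + 1) + k < (N + 1) ^ 2 := by
  nlinarith [Nat.mul_le_mul_right (N + 1) hf]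

lemma fr_tab {N : ℕ} {τ : List (ℕ × ℕ)} {Γ : List Entry} {m : ℕ → ℕ} (hm : VM N τ Γ m) :
    fr (List.range N) (fn (tab N m)) = fr (List.range N) m :=
  (hm.1.tab (N := N) (by simp)).2.1

theorem step_spec (hg : Symm g) {s : St} (h : Inv g s) (hd : ¬ Done g s) :
    Inv g (step g s) ∧ Phi g (step g s) < Phi g s := by
  obtain ⟨y, Ω, Λ, m⟩ := s
  obtain ⟨hF, hL, hV, hH⟩ := h
  dsimp only at hF hL hV hH
  have hτ : SymE (2 * g.length) (tight g y Ω) := tight_symE hg
  obtain ⟨p1, p2⟩ := proj_mt hL hτ hV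
  obtain ⟨p3, p4, -⟩ := p1.tab (N := 2 * g.length) fun v hv => (mem_nodes.1 hv).1
  have hs := search_spec (N := 2 * g.length) (nodes_nodup _ _) (fun v hv => (mem_nodes.1 hv).1)
    (edges_symm hτ) p3
  have hres : res g (y, Ω, Λ, m) = search (2 * g.length) (nodes (2 * g.length) (Λ ++ Ω))
    (edges (2 * g.length) (tight g y Ω) (Λ ++ Ω))
    (tab (2 * g.length) (proj (Λ ++ Ω) (fn m))) := rfl
  rw [← hres, p4, p2] at hs
  have hLΩ : Lam (2 * g.length) (tight g y Ω) Ω := hL.sublist (List.sublist_append_right _ _)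
  unfold step
  rw [if_neg (fun e => hd ((done_iff _).1 e))]
  rcases hs with ⟨e0, e1, e2⟩ | ⟨e0, e1, e2, e3, L, e4, e5⟩ | ⟨e0, e1⟩
  · rw [if_pos e0]
    obtain ⟨l1, l2⟩ := lift_vm hL hτ e1 0
    refine ⟨⟨hF, hLΩ, (l1.sub (List.subset_append_right _ _)).tab hLΩ, trivial⟩, ?_⟩
    unfold Phi
    dsimp only
    rw [fr_tab l1, l2]
    have a1 := nodes_length_le (2 * g.length) ([] ++ Ω)
    have a2 := Nat.mul_le_mul_right (2 * g.length + 1) (Nat.succ_le_of_lt e2)
    rw [Nat.succ_mul] at a2
    omega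
  · rw [if_neg (by omega), if_pos e0]
    obtain ⟨l1, l2⟩ := lift_vm hL hτ e1 0
    obtain ⟨m1, m2⟩ := merge_lam hL hτ e3
    obtain ⟨m3, m4⟩ := merge_full hL hτ e3.sub e1 e4 e5 0
    have l3 : VM (2 * g.length) (tight g y Ω)
        (merge (2 * g.length) (tight g y Ω) (Λ ++ Ω) (res g (y, Ω, Λ, m)).2.2 :: (Λ ++ Ω))
        (lift (tight g y Ω) (Λ ++ Ω) (fn (res g (y, Ω, Λ, m)).2.1) 0) :=
      ⟨l1.1, fun e he => by
        rcases List.mem_cons.1 he with rfl | he
        · exact m3
        · exact l1.2 e he⟩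
    refine ⟨⟨hF, m1, l3.tab m1, ?_⟩, ?_⟩
    · dsimp only
      rw [fr_tab l1, l2, e2]
      exact ⟨⟨_, l3, l2.trans e2, m4⟩, hH⟩
    · unfold Phi
      dsimp only
      rw [fr_tab l1, l2, e2, List.cons_append]
      omega
  · rw [if_neg (by omega), if_neg (by omega)]
    have hf : 0 < fr (List.range (2 * g.length)) (fn m) := by
      unfold Done at hd
      push Not at hd
      obtain ⟨v, h1, h2⟩ := hd
      exact List.countP_pos_iff.2 ⟨v, by simpa using h1, by simpa using h2⟩
    obtain ⟨d1, d2, d3⟩ := dual_spec hg hf hF hL e1 (barrier_avoids hL hH e1) _ _ rfl rfl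
    unfold dualStep
    dsimp only
    generalize newY _ y _ _ _ = y' at *
    generalize newOm _ Ω _ _ _ = Ω' at *
    rw [lift_id (tight g y' Ω')]
    obtain ⟨l1, l2⟩ := lift_vm d2 (tight_symE hg) (μ := fun c => c) (fun v hv => by simp [hv]) 0
    refine ⟨⟨d1, d2, l1.tab d2, trivial⟩, ?_⟩
    unfold Phi
    dsimp only
    have a1 := small_lt (2 * g.length) _ _
      ((fr_le (List.range (2 * g.length))
        (fn (tab (2 * g.length) (lift (tight g y' Ω') Ω' (fun c => c) 0)))).trans (by simp))
      (nodes_length_le (2 * g.length) ([] ++ Ω'))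
    have a2 : (obj (2 * g.length) y' Ω' + 1) * ((2 * g.length + 1 : ℕ) : ℤ) ^ 2 ≤
        obj (2 * g.length) y Ω * ((2 * g.length + 1 : ℕ) : ℤ) ^ 2 :=
      mul_le_mul_of_nonneg_right (by omega) (by positivity)
    have a3 : (((2 * g.length + 1) ^ 2 : ℕ) : ℤ) = ((2 * g.length + 1 : ℕ) : ℤ) ^ 2 := by push_cast; rfl
    rw [add_mul, one_mul] at a2
    omega

/-- a matching of `range n` as a perfect matching of `range (2 n)` -/
def dbl (n : ℕ) (m : ℕ → ℕ) (v : ℕ) : ℕ :=
  if v < n then (if m v = v then v + n else m v)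
  else if m (v - n) = v - n then v - n else m (v - n) + n

lemma dbl_spec {n : ℕ} {m : ℕ → ℕ} (hm : IsInv n m) :
    IsInv (2 * n) (dbl n m) ∧ ∀ v < 2 * n, dbl n m v ≠ v := by
  have key : ∀ v < 2 * n, dbl n m v < 2 * n ∧ dbl n m (dbl n m v) = v ∧ dbl n m v ≠ v := by
    intro v hv
    by_cases h1 : v < n
    · obtain ⟨a1, a2⟩ := hm v h1
      by_cases h2 : m v = v
      · have e : dbl n m v = v + n := by simp [dbl, h1, h2]
        rw [e]
        refine ⟨by omega, ?_, by omega⟩
        simp [dbl, h2]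
      · have e : dbl n m v = m v := by simp [dbl, h1, h2]
        rw [e]
        refine ⟨by omega, ?_, h2⟩
        simp [dbl, a1, a2, Ne.symm h2]
    · obtain ⟨u, rfl⟩ : ∃ u, v = u + n := ⟨v - n, by omega⟩
      obtain ⟨a1, a2⟩ := hm u (by omega)
      by_cases h2 : m u = u
      · have e : dbl n m (u + n) = u := by simp [dbl, h2]
        rw [e]
        refine ⟨by omega, ?_, by omega⟩
        simp [dbl, h2, show u < n by omega]
      · have e : dbl n m (u + n) = m u + n := by simp [dbl, h2]
        rw [e]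
        refine ⟨by omega, ?_, by omega⟩
        simp [dbl, a2, Ne.symm h2]
  exact ⟨fun v hv => ⟨(key v hv).1, (key v hv).2.1⟩, fun v hv => (key v hv).2.2⟩

lemma sum_om (g : List (List ℕ)) (m : ℕ → ℕ) :
    ∑ v ∈ Finset.range (2 * g.length), om g v (m v) =
      ∑ v ∈ Finset.range g.length, if m v < g.length then ent g v (m v) else 0 := by
  rw [two_mul, Finset.sum_range_add]
  have : ∑ x ∈ Finset.range g.length, om g (g.length + x) (m (g.length + x)) = 0 :=
    Finset.sum_eq_zero fun x _ => by simp [om]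
  rw [this, add_zero]
  exact Finset.sum_congr rfl fun v hv => by simp [om, Finset.mem_range.1 hv]

lemma sum_om_dbl (g : List (List ℕ)) {m : ℕ → ℕ} (hm : IsInv g.length m) :
    ∑ v ∈ Finset.range (2 * g.length), om g v (dbl g.length m v) = wt g m := by
  rw [sum_om]
  refine Finset.sum_congr rfl fun v hv => ?_
  have h1 := Finset.mem_range.1 hv
  by_cases h2 : m v = v
  · simp [dbl, h1, h2]
  · simp [dbl, h1, h2, (hm v h1).1]

lemma Inv.wt_le {s : St} (h : Inv g s) {m : ℕ → ℕ} (hm : IsInv g.length m) :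
    (wt g m : ℤ) ≤ obj (2 * g.length) s.1 s.2.1 := by
  have := weak_duality h.feas (h.lam.sublist (List.sublist_append_right _ _)) (dbl_spec hm).1
    (dbl_spec hm).2
  rw [← sum_om_dbl g hm]
  exact_mod_cast this

lemma Inv.phi_nonneg {s : St} (h : Inv g s) : 0 ≤ Phi g s := by
  have h1 := h.wt_le (m := fun v => v) fun v hv => ⟨hv, rfl⟩
  have h2 : 0 ≤ obj (2 * g.length) s.1 s.2.1 := le_trans (Int.natCast_nonneg _) h1
  unfold Phi
  positivity

lemma le_foldr_max {l : List ℕ} {a : ℕ} (h : a ∈ l) : a ≤ l.foldr max 0 := by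
  induction l with
  | nil => simp at h
  | cons b l ih =>
    simp only [List.foldr_cons]
    rcases List.mem_cons.1 h with rfl | h
    · exact le_max_left _ _
    · exact (ih h).trans (le_max_right _ _)

lemma om_le (g : List (List ℕ)) (u v : ℕ) : om g u v ≤ wmax g := by
  unfold om
  split_ifs with h
  · exact le_foldr_max (List.mem_map.2 ⟨(u, v), by simpa using h, rfl⟩)
  · exact Nat.zero_le _

lemma inv_start (g : List (List ℕ)) : Inv g (start g) := by
  refine ⟨fun u v hu hv _ => ?_, ⟨by simp [start], by simp [start]⟩, ⟨?_, by simp [start]⟩, trivial⟩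
  · have := om_le g u v
    simp [slack, start, cnt, List.getD_eq_getElem?_getD, hu, hv]
    omega
  · intro v hv
    simp [start, fn, hv]

lemma phi_start (g : List (List ℕ)) : Phi g (start g) < rounds g := by
  have h1 : obj (2 * g.length) (start g).1 (start g).2.1 = ((2 * g.length * wmax g : ℕ) : ℤ) := by
    have : ∑ v ∈ Finset.range (2 * g.length), (start g).1.getD v 0 =
        ∑ v ∈ Finset.range (2 * g.length), (wmax g : ℤ) :=
      Finset.sum_congr rfl fun v hv => by
        simp [start, List.getD_eq_getElem?_getD, Finset.mem_range.1 hv]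
    unfold obj
    rw [this]; simp [start]
  have h2 := small_lt (2 * g.length) _ _
    ((fr_le (List.range (2 * g.length)) (fn (start g).2.2.2)).trans (by simp))
    (nodes_length_le (2 * g.length) ((start g).2.2.1 ++ (start g).2.1))
  unfold Phi rounds
  rw [h1, add_mul, one_mul]
  exact_mod_cast Nat.add_lt_add_left h2 _

lemma iterate_spec (hg : Symm g) (k : ℕ) : Inv g ((step g)^[k] (start g)) ∧
    (Done g ((step g)^[k] (start g)) ∨ Phi g ((step g)^[k] (start g)) + k ≤ Phi g (start g)) := by
  induction k with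
  | zero => exact ⟨inv_start g, Or.inr (by simp)⟩
  | succ k ih =>
    rw [Function.iterate_succ_apply']
    by_cases hd : Done g ((step g)^[k] (start g))
    · rw [step_done hd]; exact ⟨ih.1, Or.inl hd⟩
    · obtain ⟨h1, h2⟩ := step_spec hg ih.1 hd
      refine ⟨h1, Or.inr ?_⟩
      have := ih.2.resolve_left hd
      push_cast; omega

theorem mwm_spec (hg : Symm g) : IsInv g.length (fun v => (mwm g).getD v 0) ∧
    ∀ m, IsInv g.length m → wt g m ≤ wt g (fun v => (mwm g).getD v 0) := by
  obtain ⟨h1, h2⟩ := iterate_spec hg (rounds g)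
  have hd : Done g ((step g)^[rounds g] (start g)) := by
    refine h2.resolve_right fun h => ?_
    have := h1.phi_nonneg
    have := phi_start g
    omega
  have hval : ∀ v < g.length, (mwm g).getD v 0 =
      if fn ((step g)^[rounds g] (start g)).2.2.2 v < g.length
      then fn ((step g)^[rounds g] (start g)).2.2.2 v else v := by
    intro v hv
    simp [mwm, List.getD_eq_getElem?_getD, hv]
  generalize (step g)^[rounds g] (start g) = s at *
  have hm := h1.vm.1
  constructor
  · intro v hv
    obtain ⟨-, a2, -⟩ := hm v (by simp; omega)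
    dsimp only
    by_cases e : fn s.2.2.2 v < g.length
    · rw [hval v hv, if_pos e, hval _ e, a2, if_pos hv]; exact ⟨e, rfl⟩
    · rw [hval v hv, if_neg e, hval v hv, if_neg e]; exact ⟨hv, rfl⟩
  · intro m hm'
    have e1 := h1.wt_le hm'
    have e2 := strong_duality (h1.lam.sublist (List.sublist_append_right _ _))
      (h1.vm.sub (List.subset_append_right _ _)) hd
    have e3 : ∑ v ∈ Finset.range (2 * g.length), om g v (fn s.2.2.2 v) =
        wt g (fun v => (mwm g).getD v 0) := by
      rw [sum_om]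
      refine Finset.sum_congr rfl fun v hv => ?_
      have a1 := Finset.mem_range.1 hv
      beta_reduce
      rw [hval v a1]
      by_cases e : fn s.2.2.2 v < g.length
      · simp [e, hd v (by omega)]
      · simp [e]
    rw [← e3]
    rw [← e2] at e1
    exact_mod_cast e1

end Crest.Agent.Lib.Matching
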