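import Crest.Agent.Lib.Matching.Base

/-! The matching algorithm runs in polynomial time when the weights are polynomially bounded. -/

set_option autoImplicit false

namespace Crest.Agent.Lib.Matching
open Crest.Agent.Lib.PT

namespace PolyT

variable {α : Type} [Enc α]

attribute [local irreducible] ent fn tab pairUp cyct heads grow forest meet join search row top blk
  rep tbl nodes ed edges ex lift proj merge copy om cnt slack tight par pick newY pop newOm res
  dualStep step wmax start rounds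

/-- application of a family of functions -/
lemma pt_app {β : Type} [Enc β] {μ : α → ℕ → ℕ} (hμ : PT fun p : α × ℕ => μ p.1 p.2) {i : β → α}
    {e : β → ℕ} (hi : PT i) (he : PT e) : PT fun b => μ (i b) (e b) :=
  hμ.comp (f := fun b => (i b, e b)) (hi.pair he)

variable {g P : α → List (List ℕ)} {l U μ p q b S T : α → List ℕ} {u v c d x N : α → ℕ}
  {E τ : α → List (ℕ × ℕ)} {Γ Ω : α → List Entry} {f : α → ℕ → ℕ} {y : α → List ℤ}

@[fun_prop] lemma pt_ent (hg : PT g) (hu : PT u) (hv : PT v) :
    PT fun a => ent (g a) (u a) (v a) := by unfold ent; fun_prop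

@[fun_prop] lemma pt_fn (hl : PT l) (hv : PT v) : PT fun a => fn (l a) (v a) := by
  unfold fn; fun_prop

lemma pt_tab (hN : PT N) (hb : PB N) (hf : PT fun p : α × ℕ => f p.1 p.2) :
    PT fun a => tab (N a) (f a) := by
  unfold tab
  exact PT.map (g := fun a v => min (f a v) (N a)) (hN.range hb) (hf.min (hN.comp PT.id.fst))

@[fun_prop] lemma pt_pairUp (hl : PT l) (hv : PT v) : PT fun a => pairUp (l a) (v a) := by
  unfold pairUp; fun_prop

@[fun_prop] lemma pt_cyct (hb : PT b) (hc : PT c) (hv : PT v) :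
    PT fun a => cyct (b a) (c a) (v a) := by
  unfold cyct; fun_prop

@[fun_prop] lemma pt_heads (hP : PT P) : PT fun a => heads (P a) := by
  unfold heads; fun_prop

@[fun_prop] lemma pt_grow {s : α → List (List ℕ) × List ℕ} (hU : PT U) (hE : PT E) (hμ : PT μ)
    (hs : PT s) : PT fun a => grow (U a) (E a) (μ a) (s a) := by
  unfold grow; fun_prop

lemma sz_fn_le (l : List ℕ) (v : ℕ) : sz (fn l v) ≤ sz l + sz v := by
  unfold fn
  rw [List.getD_eq_getElem?_getD]
  cases h : l[v]? with
  | none => exact Nat.le_add_left _ _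
  | some x => exact (sz_le_of_mem (List.mem_of_getElem? h)).trans (Nat.le_add_right _ _)

lemma grow_cases (U : List ℕ) (E : List (ℕ × ℕ)) (μ : List ℕ) (s : List (List ℕ) × List ℕ) :
    grow U E μ s = s ∨ ∃ p ∈ s.1, ∃ v ∈ U, grow U E μ s = ((fn μ v :: v :: p) :: s.1, v :: s.2) := by
  unfold grow
  cases h : (s.1.product U).find? (fun q => E.contains (q.1.headD 0, q.2) &&
      !(heads s.1).contains q.2 && !s.2.contains q.2) with
  | none => exact Or.inl rfl
  | some q =>
    have h1 := List.mem_of_find?_eq_some h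
    have h2 : q.1 ∈ s.1 ∧ q.2 ∈ U := List.pair_mem_product.1 h1
    exact Or.inr ⟨q.1, h2.1, q.2, h2.2, rfl⟩

lemma grow_iter (U : List ℕ) (E : List (ℕ × ℕ)) (μ : List ℕ) (i : ℕ) :
    ((grow U E μ)^[i] ((U.filter (fun v => fn μ v == v)).map (fun v => [v]), [])).1.length ≤
        U.length + i ∧
      (∀ p ∈ ((grow U E μ)^[i] ((U.filter (fun v => fn μ v == v)).map (fun v => [v]), [])).1,
        sz p ≤ sz U + 2 + i * (sz μ + 2 * sz U + 2)) ∧
      sz ((grow U E μ)^[i] ((U.filter (fun v => fn μ v == v)).map (fun v => [v]), [])).2 ≤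
        1 + i * (sz U + 1) := by
  induction i with
  | zero =>
    refine ⟨?_, fun p hp => ?_, by simp⟩
    · simpa using List.length_filter_le _ _
    · obtain ⟨v, hv, rfl⟩ := List.mem_map.1 hp
      have := sz_le_of_mem (List.mem_of_mem_filter hv)
      simp only [sz_cons, sz_nil]
      omega
  | succ i ih =>
    rw [Function.iterate_succ_apply']
    set s := (grow U E μ)^[i] ((U.filter (fun v => fn μ v == v)).map (fun v => [v]), [])
    obtain ⟨h1, h2, h3⟩ := ih
    rw [add_mul, add_mul, one_mul, one_mul]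
    rcases grow_cases U E μ s with h | ⟨p, hp, v, hv, h⟩
    · rw [h]
      exact ⟨by omega, fun p hp => (h2 p hp).trans (by omega), by omega⟩
    · rw [h]
      have h4 := sz_le_of_mem hv
      refine ⟨by simp only [List.length_cons]; omega, fun r hr => ?_, by simp only [sz_cons]; omega⟩
      rcases List.mem_cons.1 hr with rfl | hr
      · have h5 := h2 p hp
        have h6 := sz_fn_le μ v
        simp only [sz_cons]
        omega
      · exact (h2 r hr).trans (by omega)

lemma length_forest (U : List ℕ) (E : List (ℕ × ℕ)) (μ : List ℕ) :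
    (forest U E μ).1.length ≤ 2 * U.length := by
  have := (grow_iter U E μ U.length).1
  unfold forest
  omega

@[fun_prop] lemma pt_forest (hU : PT U) (hE : PT E) (hμ : PT μ) :
    PT fun a => forest (U a) (E a) (μ a) := by
  unfold forest
  refine PT.iterate (f := fun a => grow (U a) (E a) (μ a))
    (fun a => (sz (U a) + 2 + (U a).length * (sz (μ a) + 2 * sz (U a) + 2) + 1) *
      ((U a).length + (U a).length) + 1 + (1 + (U a).length * (sz (U a) + 1)) + 1)
    (by fun_prop) hU.length (PB.length hU) (by fun_prop) (by fun_prop) fun a i hi => ?_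
  obtain ⟨h1, h2, h3⟩ := grow_iter (U a) (E a) (μ a) i
  rw [sz_prod]
  refine Nat.add_le_add_right (Nat.add_le_add ?_ ?_) 1
  · refine (sz_list_le _ (sz (U a) + 2 + (U a).length * (sz (μ a) + 2 * sz (U a) + 2))
      fun r hr => (h2 r hr).trans ?_).trans
      (Nat.add_le_add_right (Nat.mul_le_mul_left _ (h1.trans (by omega))) 1)
    exact Nat.add_le_add_left (Nat.mul_le_mul_right _ hi) _
  · exact h3.trans (Nat.add_le_add_left (Nat.mul_le_mul_right _ hi) _)

@[fun_prop] lemma pt_meet (hp : PT p) (hq : PT q) : PT fun a => meet (p a) (q a) := by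
  unfold meet; fun_prop

@[fun_prop] lemma pt_join (hN : PT N) (hb : PB N) (hμ : PT μ) (hp : PT p) (hq : PT q) :
    PT fun a => join (N a) (μ a) (p a) (q a) := by
  have h1 : PT fun a => tab (N a) (fun v => if ((p a).reverse ++ q a).contains v then
      pairUp ((p a).reverse ++ q a) v else fn (μ a) v) := pt_tab hN hb (by fun_prop)
  have h2 : PT fun a => tab (N a) (fun v =>
      if ((p a).dropWhile (fun u => u != meet (p a) (q a))).contains v then
        pairUp ((p a).dropWhile (fun u => u != meet (p a) (q a))).tail v else fn (μ a) v) :=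
    pt_tab hN hb (by fun_prop)
  unfold join
  exact PT.ite (by fun_prop) ((PT.const 0).pair (h1.pair (PT.const [])))
    ((PT.const 1).pair (h2.pair (by fun_prop)))

@[fun_prop] lemma pt_search (hN : PT N) (hb : PB N) (hU : PT U) (hE : PT E) (hμ : PT μ) :
    PT fun a => search (N a) (U a) (E a) (μ a) := by
  unfold search; fun_prop

lemma search_length (N : ℕ) (U : List ℕ) (E : List (ℕ × ℕ)) (μ : List ℕ)
    (h0 : (search N U E μ).1 ≠ 0) (h1 : (search N U E μ).1 ≠ 1) :
    (search N U E μ).2.2.length ≤ 2 * U.length := by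
  unfold search at h0 h1 ⊢
  cases h : ((forest U E μ).1.product (forest U E μ).1).find?
      (fun q => q.1.headD 0 != q.2.headD 0 && E.contains (q.1.headD 0, q.2.headD 0)) with
  | none =>
    have := length_forest U E μ
    simpa [heads] using this
  | some q =>
    rw [h] at h0 h1
    simp only [Option.map_some, Option.getD_some] at h0 h1
    unfold join at h0 h1
    split_ifs at h0 h1
    · exact absurd rfl h0
    · exact absurd rfl h1

@[fun_prop] lemma pt_row {e : α → Entry} (he : PT e) (hx : PT x) (hv : PT v) :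
    PT fun a => row (e a) (x a) (v a) := by
  unfold row; fun_prop

@[fun_prop] lemma pt_top (hΓ : PT Γ) (hv : PT v) : PT fun a => top (Γ a) (v a) := by
  unfold top; fun_prop

@[fun_prop] lemma pt_blk (hΓ : PT Γ) (hv : PT v) : PT fun a => blk (Γ a) (v a) := by
  unfold blk; fun_prop

@[fun_prop] lemma pt_rep (hΓ : PT Γ) (hv : PT v) : PT fun a => rep (Γ a) (v a) := by
  unfold rep; fun_prop

@[fun_prop] lemma pt_tbl (hΓ : PT Γ) (hx : PT x) (hv : PT v) :
    PT fun a => tbl (Γ a) (x a) (v a) := by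
  unfold tbl; fun_prop

@[fun_prop] lemma pt_nodes (hN : PT N) (hb : PB N) (hΓ : PT Γ) :
    PT fun a => nodes (N a) (Γ a) := by
  unfold nodes; fun_prop

@[fun_prop] lemma pt_ed (hτ : PT τ) (hΓ : PT Γ) (hc : PT c) (hd : PT d) :
    PT fun a => ed (τ a) (Γ a) (c a) (d a) := by
  unfold ed; fun_prop

@[fun_prop] lemma pt_edges (hN : PT N) (hb : PB N) (hτ : PT τ) (hΓ : PT Γ) :
    PT fun a => edges (N a) (τ a) (Γ a) := by
  unfold edges; fun_prop

lemma pt_ex (hτ : PT τ) (hΓ : PT Γ) (hf : PT fun p : α × ℕ => f p.1 p.2) (hx : PT x) (hc : PT c) :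
    PT fun a => ex (τ a) (Γ a) (f a) (x a) (c a) := by
  have h1 : PT fun a => f a (c a) := pt_app hf PT.id hc
  unfold ex
  refine PT.ite (h1.decide_eq hc) (by fun_prop) (PT.ite (hc.decide_lt h1) ?_ ?_)
  · exact ((pt_ed hτ hΓ hc h1).optionGetD (hc.pair hc)).fst
  · exact ((pt_ed hτ hΓ h1 hc).optionGetD (hc.pair hc)).snd

lemma pt_lift (hτ : PT τ) (hΓ : PT Γ) (hf : PT fun p : α × ℕ => f p.1 p.2) (hx : PT x)
    (hv : PT v) : PT fun a => lift (τ a) (Γ a) (f a) (x a) (v a) := by
  have h0 := pt_rep hΓ hv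
  have h1 : PT fun a => f a (rep (Γ a) (v a)) := pt_app hf PT.id h0
  have h2 := pt_ex hτ hΓ hf hx h0
  have h3 := pt_ex hτ hΓ hf hx h1
  unfold lift
  exact PT.ite (hv.decide_eq h2) (PT.ite (h1.decide_eq h0) hv h3) (pt_tbl hΓ h2 hv)

lemma pt_proj (hΓ : PT Γ) (hf : PT fun p : α × ℕ => f p.1 p.2) (hc : PT c) :
    PT fun a => proj (Γ a) (f a) (c a) := by
  have h0 := pt_blk hΓ hc
  have h1 : PT fun a => (blk (Γ a) (c a)).find?
      (fun v => f a v == v || !(blk (Γ a) (c a)).contains (f a v)) :=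
    PT.find? (g := fun a v => f a v == v || !(blk (Γ a) (c a)).contains (f a v)) h0
      ((hf.beq PT.id.snd).or (hf.contains (h0.comp PT.id.fst)).not)
  unfold proj
  exact pt_rep hΓ (pt_app hf PT.id (h1.optionGetD hc))

@[fun_prop] lemma pt_merge (hN : PT N) (hb : PB N) (hτ : PT τ) (hΓ : PT Γ) (hb' : PT b) :
    PT fun a => merge (N a) (τ a) (Γ a) (b a) := by
  unfold merge
  refine PT.pair (by fun_prop) (PT.map (g := fun a x =>
    tab (N a) (lift (τ a) (Γ a) (cyct (b a) (rep (Γ a) x)) x)) (hN.range hb) ?_)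
  refine pt_tab (N := fun p : α × ℕ => N p.1)
    (f := fun p : α × ℕ => lift (τ p.1) (Γ p.1) (cyct (b p.1) (rep (Γ p.1) p.2)) p.2)
    (hN.comp PT.id.fst) (hb.comp PT.id.fst) ?_
  exact pt_lift (f := fun p : (α × ℕ) × ℕ => cyct (b p.1.1) (rep (Γ p.1.1) p.1.2))
    (by fun_prop) (by fun_prop) (by fun_prop) (by fun_prop) (by fun_prop)

@[fun_prop] lemma pt_copy (hN : PT N) (hb : PB N) (hΓ : PT Γ) (hc : PT c) :
    PT fun a => copy (N a) (Γ a) (c a) := by
  unfold copy
  refine PT.pair (by fun_prop) (PT.map (g := fun a x => tab (N a) (tbl (Γ a) x)) (hN.range hb) ?_)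
  exact pt_tab (N := fun p : α × ℕ => N p.1) (f := fun p : α × ℕ => tbl (Γ p.1) p.2)
    (hN.comp PT.id.fst) (hb.comp PT.id.fst) (by fun_prop)

@[fun_prop] lemma pt_om (hg : PT g) (hu : PT u) (hv : PT v) :
    PT fun a => om (g a) (u a) (v a) := by
  unfold om; fun_prop

@[fun_prop] lemma pt_cnt (hΩ : PT Ω) (hu : PT u) (hv : PT v) :
    PT fun a => cnt (Ω a) (u a) (v a) := by
  unfold cnt; fun_prop

@[fun_prop] lemma pt_slack (hg : PT g) (hy : PT y) (hΩ : PT Ω) (hu : PT u) (hv : PT v) :
    PT fun a => slack (g a) (y a) (Ω a) (u a) (v a) := by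
  unfold slack; fun_prop

@[fun_prop] lemma pt_tight (hg : PT g) (hy : PT y) (hΩ : PT Ω) :
    PT fun a => tight (g a) (y a) (Ω a) := by
  unfold tight; fun_prop

@[fun_prop] lemma pt_par {z : α → ℤ} (hy : PT y) (hz : PT z) (hl : PT l) :
    PT fun a => par (y a) (z a) (l a) := by
  unfold par; fun_prop

@[fun_prop] lemma pt_pick (hy : PT y) (hS : PT S) (hT : PT T) :
    PT fun a => pick (y a) (S a) (T a) := by
  unfold pick; fun_prop

@[fun_prop] lemma pt_newY (hN : PT N) (hb : PB N) (hy : PT y) (hΓ : PT Γ) (hS : PT S) (hT : PT T) :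
    PT fun a => newY (N a) (y a) (Γ a) (S a) (T a) := by
  unfold newY; fun_prop

lemma pop_sublist (Ω : List Entry) (S : List ℕ) : (pop Ω S).Sublist Ω := by
  unfold pop
  induction S generalizing Ω with
  | nil => exact List.Sublist.refl _
  | cons c S ih => exact (ih _).trans (List.eraseIdx_sublist _ _)

@[fun_prop] lemma pt_pop (hΩ : PT Ω) (hS : PT S) : PT fun a => pop (Ω a) (S a) := by
  unfold pop
  refine PT.foldl_add
    (f := fun _ (Ω : List Entry) (c : ℕ) => Ω.eraseIdx (Ω.findIdx (fun e => e.1.contains c)))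
    (fun _ => 0) (by fun_prop) hS hΩ (PB.const 0) fun a acc x _ => ?_
  exact sz_sublist_le (List.eraseIdx_sublist _ _)

@[fun_prop] lemma pt_newOm (hN : PT N) (hb : PB N) (hΩ : PT Ω) (hΓ : PT Γ) (hS : PT S)
    (hT : PT T) : PT fun a => newOm (N a) (Ω a) (Γ a) (S a) (T a) := by
  unfold newOm
  exact (PT.map (g := fun a c => copy (N a) (Γ a) c) hT (by fun_prop)).append (pt_pop hΩ hS)

variable {s : α → St}

@[fun_prop] lemma pt_res (hg : PT g) (hs : PT s) : PT fun a => res (g a) (s a) := by
  have h1 : PT fun a => tab (2 * (g a).length)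
      (proj ((s a).2.2.1 ++ (s a).2.1) (fn (s a).2.2.2)) :=
    pt_tab (by fun_prop) (by fun_prop)
      (pt_proj (f := fun p : α × ℕ => fn (s p.1).2.2.2) (by fun_prop) (by fun_prop) PT.id.snd)
  unfold res
  exact pt_search (by fun_prop) (by fun_prop) (by fun_prop) (by fun_prop) h1

@[fun_prop] lemma pt_dualStep (hg : PT g) (hs : PT s) (hS : PT S) (hT : PT T) :
    PT fun a => dualStep (g a) (s a) (S a) (T a) := by
  have h0 : PT fun a => newOm (2 * (g a).length) (s a).2.1 ((s a).2.2.1 ++ (s a).2.1) (S a) (T a) := by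
    fun_prop
  have h1 : PT fun a => tab (2 * (g a).length) (lift [] (newOm (2 * (g a).length) (s a).2.1
      ((s a).2.2.1 ++ (s a).2.1) (S a) (T a)) (fun c => c) 0) :=
    pt_tab (by fun_prop) (by fun_prop)
      (pt_lift (f := fun _ c => c) (PT.const []) (h0.comp PT.id.fst) PT.id.snd (PT.const 0) PT.id.snd)
  unfold dualStep
  exact PT.pair (by fun_prop) (h0.pair ((PT.const []).pair h1))

@[fun_prop] lemma pt_step (hg : PT g) (hs : PT s) : PT fun a => step (g a) (s a) := by
  have h0 := pt_res hg hs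
  have h1 : PT fun a => tab (2 * (g a).length) (lift (tight (g a) (s a).1 (s a).2.1)
      ((s a).2.2.1 ++ (s a).2.1) (fn (res (g a) (s a)).2.1) 0) :=
    pt_tab (by fun_prop) (by fun_prop)
      (pt_lift (f := fun p : α × ℕ => fn (res (g p.1) (s p.1)).2.1) (by fun_prop) (by fun_prop)
        (by fun_prop) (PT.const 0) PT.id.snd)
  unfold step
  refine PT.ite (by fun_prop) hs (PT.ite (by fun_prop)
    (hs.fst.pair (hs.snd.fst.pair ((PT.const []).pair h1))) (PT.ite (by fun_prop)
    (hs.fst.pair (hs.snd.fst.pair (PT.pair (by fun_prop) h1))) (by fun_prop)))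

lemma foldr_max_mem (l : List ℕ) : l.foldr max 0 = 0 ∨ l.foldr max 0 ∈ l := by
  induction l with
  | nil => exact Or.inl rfl
  | cons a l ih =>
    rw [List.foldr_cons]
    rcases max_choice a (l.foldr max 0) with h | h
    · rw [h]; exact Or.inr List.mem_cons_self
    · rw [h]; exact ih.imp id (List.mem_cons_of_mem _)

lemma pt_foldr_max (hl : PT l) : PT fun a => (l a).foldr max 0 := by
  refine PT.foldr (f := fun _ (x acc : ℕ) => max x acc) (fun a => sz (l a)) (by fun_prop) hl
    (PT.const 0) (PB.sz hl) fun a i => ?_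
  rcases foldr_max_mem ((l a).drop i) with h | h
  · rw [show (fun x acc : ℕ => max x acc) = max from rfl, h]; exact one_le_sz _
  · exact sz_le_of_mem (List.mem_of_mem_drop h)

@[fun_prop] lemma pt_wmax (hg : PT g) : PT fun a => wmax (g a) := by
  unfold wmax
  exact pt_foldr_max (by fun_prop)

lemma wmax_le {g : List (List ℕ)} {B : ℕ} (h : ∀ u v, ent g u v ≤ B) : wmax g ≤ B := by
  unfold wmax
  rcases foldr_max_mem (((List.range g.length).product (List.range g.length)).map
    (fun q => ent g q.1 q.2)) with h1 | h1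
  · rw [h1]; exact Nat.zero_le _
  · obtain ⟨q, -, hq⟩ := List.mem_map.1 h1
    rw [← hq]; exact h _ _

@[fun_prop] lemma pt_start (hg : PT g) : PT fun a => start (g a) := by
  unfold start; fun_prop

@[fun_prop] lemma pt_rounds (hg : PT g) : PT fun a => rounds (g a) := by
  unfold rounds; fun_prop

lemma pb_rounds (hg : PT g) (hw : PB fun a => wmax (g a)) : PB fun a => rounds (g a) := by
  unfold rounds
  have h1 : PB fun a => 2 * (g a).length := (PB.const 2).mul (PB.length hg)
  exact ((h1.mul hw).add (PB.const 1)).mul ((h1.add (PB.const 1)).pow 2)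

/-! ### size invariants -/

/-- bound on the size of a table row -/
def bT (N : ℕ) : ℕ := (sz N + 1) * N + 1
/-- bound on the size of an entry -/
def bE (N : ℕ) : ℕ := bT N + ((bT N + 1) * N + 1) + 1

lemma sz_tab (N : ℕ) (f : ℕ → ℕ) : sz (tab N f) ≤ bT N := by
  unfold tab bT
  refine (sz_list_le _ (sz N) fun x hx => ?_).trans (by simp)
  obtain ⟨v, -, rfl⟩ := List.mem_map.1 hx
  exact sz_nat_mono (min_le_right _ _)

lemma sz_entry (N : ℕ) (P : ℕ → Bool) (F : ℕ → ℕ → ℕ) :
    sz (((List.range N).filter P, (List.range N).map fun x => tab N (F x)) : Entry) ≤ bE N := by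
  unfold bE
  rw [sz_pair]
  refine Nat.add_le_add_right (Nat.add_le_add ?_ ?_) 1
  · refine (sz_filter_le _ _).trans ((sz_list_le _ (sz N) fun x hx => ?_).trans (by simp [bT]))
    exact sz_nat_mono (List.mem_range.1 hx).le
  · refine (sz_list_le _ (bT N) fun x hx => ?_).trans (by simp)
    obtain ⟨v, -, rfl⟩ := List.mem_map.1 hx
    exact sz_tab _ _

lemma sz_merge (N : ℕ) (τ : List (ℕ × ℕ)) (Γ : List Entry) (b : List ℕ) :
    sz (merge N τ Γ b) ≤ bE N := by
  unfold merge; exact sz_entry _ _ _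

lemma sz_copy (N : ℕ) (Γ : List Entry) (c : ℕ) : sz (copy N Γ c) ≤ bE N := by
  unfold copy; exact sz_entry _ _ _

/-- the invariant after `i` rounds -/
structure Ok (g : List (List ℕ)) (i : ℕ) (s : St) : Prop where
  ylen : s.1.length ≤ 2 * g.length
  yabs : ∀ z ∈ s.1, |z| ≤ (wmax g + i : ℕ)
  olen : s.2.1.length ≤ 4 * g.length * i
  osz : ∀ e ∈ s.2.1, sz e ≤ bE (2 * g.length)
  llen : s.2.2.1.length ≤ i
  lsz : ∀ e ∈ s.2.2.1, sz e ≤ bE (2 * g.length)
  msz : sz s.2.2.2 ≤ bT (2 * g.length)

lemma Ok.mono {g : List (List ℕ)} {i j : ℕ} {s : St} (h : Ok g i s) (hij : i ≤ j) : Ok g j s :=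
  ⟨h.ylen, fun z hz => (h.yabs z hz).trans (by exact_mod_cast Nat.add_le_add_left hij _),
    h.olen.trans (Nat.mul_le_mul_left _ hij), h.osz, h.llen.trans hij, h.lsz, h.msz⟩

lemma Ok.getD {g : List (List ℕ)} {i : ℕ} {s : St} (h : Ok g i s) (v : ℕ) :
    |s.1.getD v 0| ≤ (wmax g + i : ℕ) := by
  rw [List.getD_eq_getElem?_getD]
  cases hv : s.1[v]? with
  | none => simp only [Option.getD_none, abs_zero]; exact Int.natCast_nonneg _
  | some x => exact h.yabs x (List.mem_of_getElem? hv)

lemma ok_start (g : List (List ℕ)) : Ok g 0 (start g) := by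
  unfold start
  refine ⟨by simp, fun z hz => ?_, by simp, by simp, by simp, by simp, by simp [bT]⟩
  rw [(List.mem_replicate.1 hz).2]
  simp

lemma Ok.dualStep {g : List (List ℕ)} {i : ℕ} {s : St} (h : Ok g i s) (S : List ℕ) {T : List ℕ}
    (hT : T.length ≤ 4 * g.length) : Ok g (i + 1) (dualStep g s S T) := by
  unfold Matching.dualStep
  refine ⟨by simp [newY], fun z hz => ?_, ?_, fun e he => ?_, by simp, by simp, sz_tab _ _⟩
  · unfold newY at hz
    obtain ⟨v, -, rfl⟩ := List.mem_map.1 hz
    have h1 := abs_le.1 (h.getD v)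
    rw [abs_le]
    push_cast at h1 ⊢
    split_ifs <;> constructor <;> omega
  · have h1 := (pop_sublist s.2.1 S).length_le
    have h2 := h.olen
    simp only [newOm, List.length_append, List.length_map]
    rw [mul_add, mul_one]
    omega
  · unfold newOm at he
    rcases List.mem_append.1 he with he | he
    · obtain ⟨c, -, rfl⟩ := List.mem_map.1 he
      exact sz_copy _ _ _
    · exact h.osz e ((pop_sublist _ _).subset he)

lemma Ok.step {g : List (List ℕ)} {i : ℕ} {s : St} (h : Ok g i s) : Ok g (i + 1) (step g s) := by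
  have h' := h.mono (Nat.le_succ i)
  unfold Matching.step
  split_ifs with h1 h2 h3
  · exact h'
  · exact ⟨h'.ylen, h'.yabs, h'.olen, h'.osz, by simp, by simp, sz_tab _ _⟩
  · refine ⟨h'.ylen, h'.yabs, h'.olen, h'.osz, by simpa using h.llen, fun e he => ?_, sz_tab _ _⟩
    rcases List.mem_cons.1 he with rfl | he
    · exact sz_merge _ _ _ _
    · exact h.lsz e he
  · refine h.dualStep _ ?_
    have h4 : (res g s).2.2.length ≤ 2 * (nodes (2 * g.length) (s.2.2.1 ++ s.2.1)).length := by
      unfold res at h2 h3 ⊢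
      exact search_length _ _ _ _ h2 h3
    have h5 : (nodes (2 * g.length) (s.2.2.1 ++ s.2.1)).length ≤ 2 * g.length := by
      unfold nodes
      exact (List.length_filter_le _ _).trans (by simp)
    unfold par
    exact (List.length_filter_le _ _).trans (by omega)

lemma ok_iter (g : List (List ℕ)) (i : ℕ) : Ok g i ((step g)^[i] (start g)) := by
  induction i with
  | zero => exact ok_start g
  | succ i ih => rw [Function.iterate_succ_apply']; exact ih.step

lemma Ok.sz_le {g : List (List ℕ)} {i : ℕ} {s : St} (h : Ok g i s) :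
    sz s ≤ (sz (wmax g + i) + 6 + 1) * (2 * g.length) + 1 +
      ((bE (2 * g.length) + 1) * (4 * g.length * i) + 1 +
        ((bE (2 * g.length) + 1) * i + 1 + bT (2 * g.length) + 1) + 1) + 1 := by
  rw [sz_prod s, sz_prod s.2, sz_prod s.2.2]
  have h1 := (sz_list_le _ _ fun z hz => sz_int_le_of_abs_le (h.yabs z hz)).trans
    (Nat.add_le_add_right (Nat.mul_le_mul_left _ h.ylen) 1)
  have h2 := (sz_list_le _ _ h.osz).trans (Nat.add_le_add_right (Nat.mul_le_mul_left _ h.olen) 1)
  have h3 := (sz_list_le _ _ h.lsz).trans (Nat.add_le_add_right (Nat.mul_le_mul_left _ h.llen) 1)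
  have h4 := h.msz
  omega

lemma pt_final (hg : PT g) (hw : PB fun a => wmax (g a)) :
    PT fun a => (step (g a))^[rounds (g a)] (start (g a)) := by
  have hr := pb_rounds hg hw
  have h1 : PB fun a => 2 * (g a).length := (PB.const 2).mul (PB.length hg)
  have hT : PB fun a => bT (2 * (g a).length) := by
    unfold bT
    exact (((PB.sz (by fun_prop)).add (PB.const 1)).mul h1).add (PB.const 1)
  have hE : PB fun a => bE (2 * (g a).length) := by
    unfold bE
    exact (hT.add (((hT.add (PB.const 1)).mul h1).add (PB.const 1))).add (PB.const 1)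
  refine PT.iterate (f := fun a => step (g a))
    (fun a => (sz (wmax (g a) + rounds (g a)) + 6 + 1) * (2 * (g a).length) + 1 +
      ((bE (2 * (g a).length) + 1) * (4 * (g a).length * rounds (g a)) + 1 +
        ((bE (2 * (g a).length) + 1) * rounds (g a) + 1 + bT (2 * (g a).length) + 1) + 1) + 1)
    (by fun_prop) (pt_rounds hg) hr (pt_start hg) ?_ fun a i hi => ((ok_iter (g a) i).mono hi).sz_le
  have h2 : PB fun a => sz (wmax (g a) + rounds (g a)) := PB.sz (by fun_prop)
  have h3 : PB fun a => 4 * (g a).length := (PB.const 4).mul (PB.length hg)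
  have h4 := hE.add (PB.const 1)
  exact (((((h2.add (PB.const 6)).add (PB.const 1)).mul h1).add (PB.const 1)).add
    ((((h4.mul (h3.mul hr)).add (PB.const 1)).add
      ((((h4.mul hr).add (PB.const 1)).add hT).add (PB.const 1))).add (PB.const 1))).add
    (PB.const 1)

end PolyT

theorem mwm_pt {ι : Type} [Enc ι] (g : ι → List (List ℕ)) (B : ι → ℕ) (hg : PT g) (hB : PB B)
    (hle : ∀ i u v, ent (g i) u v ≤ B i) : PT (fun i => mwm (g i)) := by
  have h1 := (PolyT.pt_final hg (hB.of_le fun i => PolyT.wmax_le (hle i))).snd.snd.snd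
  have h2 : PT fun p : ι × ℕ => fn ((step (g p.1))^[rounds (g p.1)] (start (g p.1))).2.2.2 p.2 :=
    PolyT.pt_fn (h1.comp PT.id.fst) PT.id.snd
  unfold mwm
  exact PT.map (g := fun i v =>
    if fn ((step (g i))^[rounds (g i)] (start (g i))).2.2.2 v < (g i).length
    then fn ((step (g i))^[rounds (g i)] (start (g i))).2.2.2 v else v)
    (hg.length.range (PB.length hg))
    (PT.ite (h2.decide_lt (hg.comp PT.id.fst).length) h2 PT.id.snd)

end Crest.Agent.Lib.Matching
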