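import Crest.Agent.Lib.Matching.Loop
import Crest.Agent.Lib.Matching.PolyT

/-!
Exact maximum weight matching in general graphs (small integer weights), in polynomial time.
A weight matrix is a list of lists; a matching on `range n` is an involution (fixed point = unmatched).
-/

set_option autoImplicit false

namespace Crest.Agent.Lib.Matching
open Crest.Agent.Lib.PT

/-- Edmonds' weighted blossom algorithm. -/
theorem exists_mwm : ∃ mwm : List (List ℕ) → List ℕ,
    (∀ g, Symm g → IsInv g.length (fun v => (mwm g).getD v 0) ∧
      ∀ m, IsInv g.length m → wt g m ≤ wt g (fun v => (mwm g).getD v 0)) ∧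
    ∀ {ι : Type} [Enc ι] (g : ι → List (List ℕ)) (B : ι → ℕ), PT g → PB B →
      (∀ i u v, ent (g i) u v ≤ B i) → (∀ i, Symm (g i)) → PT (fun i => mwm (g i)) :=
  ⟨mwm, fun _ hg => mwm_spec hg, fun g B hg hB hle _ => mwm_pt g B hg hB hle⟩

end Crest.Agent.Lib.Matching
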